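import Vale.Agent.P267.H206.Num
import Vale.Agent.P267.H824.Leaf
import Vale.Agent.P267.H399.LBCurv

/-!
# P267, GX-FACT (helper206), numbers 2: line bundles on the infinite cyclic cover

`Basis H E i₀ R`: the basis bundles `E i` of block C. For a bundle `L` which is trivial at both
ends: coordinates `xx L b = -(E_b . L)`, Parseval, integrality, products; a bundle with `xx L = 0`
satisfies `H1Leaf` with `r = 0`.
-/

set_option linter.unusedSectionVars false
set_option linter.unusedVariables false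

open scoped Manifold ContDiff ComplexConjugate Matrix
open Set
open Vale.Agent.P267.FL Vale.Agent.P267.H158 Vale.Agent.P267.RR Vale.Agent.P267.H379
open Vale.Agent.P267.BlockC

noncomputable section

namespace Vale.Agent.P267.H206

/-! ### curvature of products and duals -/

section curv

variable {M : Type*} [TopologicalSpace M] [ChartedSpace C2 M] [IsManifold 𝓘(ℂ, C2) ω M]
variable {ι ι' : Type} [Fintype ι] [DecidableEq ι] [Fintype ι'] [DecidableEq ι']

theorem curv_tensor (L : LB M ι) (L' : LB M ι') : (L.tensor L').curv = L.curv + L'.curv := by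
  have h1 : (L.tensor L').F20 = L.F20 + L'.F20 := funext fun x => LB.F20_tensor L L' x
  have h2 : (L.tensor L').F02 = L.F02 + L'.F02 := funext fun x => LB.F02_tensor L L' x
  have h3 : (L.tensor L').F11 = L.F11 + L'.F11 := by
    funext x; ext i j; exact LB.F11_tensor L L' x i j
  change (⟨_, _, _⟩ : TwoF M) = ⟨_, _, _⟩
  rw [h1, h2, h3]
  rfl

theorem curv_dual (L : LB M ι) : L.dual.curv = (-1 : ℂ) • L.curv := by
  have h1 : L.dual.F20 = (-1 : ℂ) • L.F20 := funext fun x => by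
    rw [LB.F20_dual, Pi.smul_apply, smul_eq_mul, neg_one_mul]
  have h2 : L.dual.F02 = (-1 : ℂ) • L.F02 := funext fun x => by
    rw [LB.F02_dual, Pi.smul_apply, smul_eq_mul, neg_one_mul]
  have h3 : L.dual.F11 = (-1 : ℂ) • L.F11 := by
    funext x; ext i j
    rw [LB.F11_dual, Pi.smul_apply, Matrix.smul_apply, smul_eq_mul, neg_one_mul]
  change (⟨_, _, _⟩ : TwoF M) = ⟨_, _, _⟩
  rw [h1, h2, h3]
  rfl

end curv

section cov

variable {X : Type} [TopologicalSpace X] [ChartedSpace C2 X] [IsManifold 𝓘(ℂ, C2) ω X]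
  {hh : C(X, UnitAddCircle)}

/-- the tensor product, with its index type -/
def aten {M : Type} [TopologicalSpace M] [ChartedSpace C2 M] (L L' : ALB M) : ALB M :=
  ⟨L.ι × L'.ι, L.L.tensor L'.L⟩

/-- the dual, with its index type -/
def adual {M : Type} [TopologicalSpace M] [ChartedSpace C2 M] (L : ALB M) : ALB M :=
  ⟨L.ι, L.L.dual⟩

theorem kron_single' {ι ι' : Type} [DecidableEq ι] [DecidableEq ι'] (i₀ : ι) (i₀' : ι') :
    Matrix.kroneckerMap (· * ·) (Matrix.single i₀ i₀ (1 : ℂ)) (Matrix.single i₀' i₀' (1 : ℂ)) =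
      Matrix.single (i₀, i₀') (i₀, i₀') 1 := by
  ext ⟨p, p'⟩ ⟨q, q'⟩
  simp only [Matrix.kroneckerMap_apply, Matrix.single_apply, Prod.mk.injEq]
  by_cases h1 : i₀ = p
  · by_cases h2 : i₀ = q
    · by_cases h3 : i₀' = p'
      · by_cases h4 : i₀' = q'
        · subst h1 h3 h4
          simp [← h2]
        · simp [h4]
      · simp [h3]
    · simp [h2]
  · simp [h1]

theorem endTriv_aten {L L' : ALB (Cov hh)} {i : L.ι} {i' : L'.ι} {R : ℝ}
    (h : BlockC.EndTriv hh L i R) (h' : BlockC.EndTriv hh L' i' R) :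
    BlockC.EndTriv hh (aten L L') ((i, i') : L.ι × L'.ι) R := by
  intro x hx
  change Matrix.kroneckerMap (· * ·) (L.L.P x) (L'.L.P x) = _
  rw [h x hx, h' x hx]
  exact kron_single' i i'

theorem endTriv_adual {L : ALB (Cov hh)} {i : L.ι} {R : ℝ} (h : BlockC.EndTriv hh L i R) :
    BlockC.EndTriv hh (adual L) i R := by
  intro x hx
  change (L.L.P x)ᵀ = _
  rw [h x hx, Matrix.transpose_single]
  rfl

theorem endTriv_le {L : ALB (Cov hh)} {i : L.ι} {R R' : ℝ} (h : BlockC.EndTriv hh L i R)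
    (hR : R ≤ R') : BlockC.EndTriv hh L i R' := fun x hx => h x (hR.trans hx)

variable {n : ℕ}

/-- the basis bundles of block C -/
structure Basis (H : CovFacts hh) (E : Fin n → ALB (Cov hh)) (i₀ : ∀ i, (E i).ι) (R : ℝ) :
    Prop where
  form : ∀ m : ℕ, ∀ [NeZero m], FormFacts (CovM hh m)
  unimod : ∀ m : ℕ, ∀ [NeZero m], Unimod (CovM hh m) (m * n)
  triv : ∀ i, BlockC.EndTriv hh (E i) (i₀ i) R
  dot : ∀ (i j k) (L' : LB (Cov hh) (E j).ι), IsShift hh k (E j).L L' →
      isec (E i).L L' = if i = j ∧ k = 0 then -1 else 0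
  can : ∀ (i) (K : ALB (Cov hh)), IsCanon K.L → isec K.L (E i).L = -1

namespace Basis

variable {H : CovFacts hh} {E : Fin n → ALB (Cov hh)} {i₀ : ∀ i, (E i).ι} {R : ℝ}
  (S : Basis H E i₀ R)

/-- the classes of the basis bundles -/
def e (i : Fin n) : H.Vc := H.cl (E i) (i₀ i) R (S.triv i)

theorem orth : Orth H S.e where
  form := S.form
  unimod := S.unimod
  dot i j k := by
    obtain ⟨L', hL'⟩ := H.exists_shift k (E j)
    have hT := CovFacts.endTriv_shift (S.triv j) hL'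
    have h1 := S.dot i j k L' hL'
    have h2 := H.isec_eq_Q (E i) ⟨(E j).ι, L'⟩ (i₀ i) (i₀ j) R _ (S.triv i) hT
    rw [H.cl_shift (S.triv j) hL'] at h2
    rw [h2] at h1
    have h3 : (H.Q (S.e i) ((H.g ^ k) (S.e j)) : ℂ) = if i = j ∧ k = 0 then -1 else 0 := h1
    split_ifs at h3 ⊢ <;> exact_mod_cast h3

/-- the coordinates of the class of `L` -/
def xx (L : ALB (Cov hh)) (j : L.ι) (R' : ℝ) (hL : BlockC.EndTriv hh L j R')
    (b : Fin n × ℤ) : ℝ := crd S.e (H.cl L j R' hL) b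

/-- the finite set of nonzero coordinates -/
def ss (L : ALB (Cov hh)) (j : L.ι) (R' : ℝ) (hL : BlockC.EndTriv hh L j R') :
    Finset (Fin n × ℤ) := sup S.e (H.cl L j R' hL)

variable {L L₂ : ALB (Cov hh)} {j : L.ι} {j₂ : L₂.ι} {R' R₂ : ℝ}

theorem mem_ss (hL : BlockC.EndTriv hh L j R') {b : Fin n × ℤ} :
    b ∈ S.ss L j R' hL ↔ S.xx L j R' hL b ≠ 0 := mem_sup

/-- the coordinates are intersection numbers with the translates of the basis bundles -/
theorem isec_shift (hL : BlockC.EndTriv hh L j R') (i : Fin n) (k : ℤ)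
    {E' : LB (Cov hh) (E i).ι} (hE' : IsShift hh k (E i).L E') :
    isec L.L E' = ((-S.xx L j R' hL (i, k) : ℝ) : ℂ) := by
  have hT := CovFacts.endTriv_shift (S.triv i) hE'
  have h2 := H.isec_eq_Q L ⟨(E i).ι, E'⟩ j (i₀ i) R' _ hL hT
  rw [H.cl_shift (S.triv i) hE'] at h2
  rw [h2, xx, crd, neg_neg]
  rfl

/-- **Parseval** -/
theorem isec_eq_sum (hL : BlockC.EndTriv hh L j R') (hL₂ : BlockC.EndTriv hh L₂ j₂ R₂) :
    isec L.L L₂.L = ((-∑ b ∈ S.ss L j R' hL, S.xx L j R' hL b * S.xx L₂ j₂ R₂ hL₂ b : ℝ) : ℂ) := by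
  rw [H.isec_eq_Q L L₂ j j₂ R' R₂ hL hL₂, S.orth.parseval]
  rfl

theorem pair_canon (K : ALB (Cov hh)) (hK : IsCanon K.L) (i : Fin n) (k : ℤ) :
    pair ((H.g ^ k) (S.e i)).1 K.L.curv = 2 * Real.pi * Complex.I := by
  -- `K` is invariant up to exact forms
  have hpi : (Real.pi : ℂ) ≠ 0 := by exact_mod_cast Real.pi_ne_zero
  obtain ⟨K1, hK1⟩ := (S.form 1).exists_canon
  obtain ⟨K0, hK0, hK0c⟩ := H.canon_pull 1 K1 hK1
  have hKK : ∀ F : H.Vc, pair F.1 K.L.curv = pair F.1 K0.L.curv := by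
    intro F
    obtain ⟨A, hA, hAd⟩ := H.canon K K0 hK hK0
    have h1 : K.L.curv = K0.L.curv + A.d := by rw [hAd]; abel
    rw [h1, H.pair_add' _ _ _ F.2.1 (H.curv_smooth K0) (H.smooth_d A hA) F.2.2.2.2,
      H.pair_d A F.1 hA F.2.1 F.2.2.1 F.2.2.2.2, add_zero]
  have hsh : ∀ k : ℤ, shF k K0.L.curv = K0.L.curv := by
    intro k
    rw [hK0c]
    have h1 : ∀ x : Cov hh, Cov.toM 1 (Cov.shift (-k) x) = Cov.toM 1 x := fun x => by
      rw [eq_comm, Cov.toM_eq_iff]
      exact ⟨-k, by simp⟩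
    unfold shF pullM
    simp only [h1]
  rw [hKK, H.g_zpow]
  have h2 : pair (shF k (S.e i).1) K0.L.curv = pair (S.e i).1 K0.L.curv := by
    conv_lhs => rw [← hsh k]
    exact H.pair_sh k _ _ (S.e i).2.1 (H.curv_smooth K0) (S.e i).2.2.2.2
  rw [h2, ← hKK]
  have h3 := S.can i K hK
  rw [BlockC.isec_comm, isec_eq] at h3
  change pair ((Complex.I / (2 * Real.pi)) • (E i).L.curv) K.L.curv = _
  rw [H.pair_smul _ _ _ (H.curv_smooth (E i)) (H.curv_smooth K)
    (H.curv_CS (E i) (i₀ i) R (S.triv i))]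
  have h4 : pair (E i).L.curv K.L.curv = 4 * (Real.pi : ℂ) ^ 2 := by
    field_simp at h3
    linear_combination -h3
  rw [h4]
  field_simp
  ring

/-- **Parseval for `K`** -/
theorem isec_canon (hL : BlockC.EndTriv hh L j R') {K : ALB (Cov hh)} (hK : IsCanon K.L) :
    isec K.L L.L = ((-∑ b ∈ S.ss L j R' hL, S.xx L j R' hL b : ℝ) : ℂ) := by
  have hpi : (Real.pi : ℂ) ≠ 0 := by exact_mod_cast Real.pi_ne_zero
  have hI : Complex.I ≠ 0 := Complex.I_ne_zero
  have h1 := S.orth.canon hK (c := 2 * Real.pi * Complex.I)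
    (fun i k => S.pair_canon K hK i k) (H.cl L j R' hL)
  change pair ((Complex.I / (2 * Real.pi)) • L.L.curv) K.L.curv = _ at h1
  rw [H.pair_smul _ _ _ (H.curv_smooth L) (H.curv_smooth K) (H.curv_CS L j R' hL)] at h1
  rw [BlockC.isec_comm, isec_eq]
  have h2 : pair L.L.curv K.L.curv =
      4 * (Real.pi : ℂ) ^ 2 * ((∑ b ∈ S.ss L j R' hL, S.xx L j R' hL b : ℝ) : ℂ) := by
    have h3 : (∑ b ∈ S.ss L j R' hL, S.xx L j R' hL b) =
        ∑ b ∈ sup S.e (H.cl L j R' hL), crd S.e (H.cl L j R' hL) b := rfl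
    rw [h3]
    generalize (∑ b ∈ sup S.e (H.cl L j R' hL), crd S.e (H.cl L j R' hL) b : ℝ) = s at h1 ⊢
    field_simp at h1
    linear_combination h1
  rw [h2]
  push_cast
  field_simp

/-! ### products and duals -/

theorem xx_tensor (hL : BlockC.EndTriv hh L j R') (hL₂ : BlockC.EndTriv hh L₂ j₂ R')
    (b : Fin n × ℤ) : S.xx (aten L L₂) ((j, j₂) : L.ι × L₂.ι) R' (endTriv_aten hL hL₂) b =
      S.xx L j R' hL b + S.xx L₂ j₂ R' hL₂ b := by
  have h1 : H.cl (aten L L₂) ((j, j₂) : L.ι × L₂.ι) R' (endTriv_aten hL hL₂) =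
      H.cl L j R' hL + H.cl L₂ j₂ R' hL₂ := by
    apply Subtype.ext
    change (Complex.I / (2 * Real.pi)) • (L.L.tensor L₂.L).curv =
      (Complex.I / (2 * Real.pi)) • L.L.curv + (Complex.I / (2 * Real.pi)) • L₂.L.curv
    rw [curv_tensor, smul_add]
  unfold xx crd
  rw [h1, map_add, LinearMap.add_apply]
  ring

theorem xx_dual (hL : BlockC.EndTriv hh L j R') (b : Fin n × ℤ) :
    S.xx (adual L) (j : L.ι) R' (endTriv_adual hL) b = -S.xx L j R' hL b := by
  have h1 : H.cl (adual L) (j : L.ι) R' (endTriv_adual hL) = (-1 : ℝ) • H.cl L j R' hL := by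
    apply Subtype.ext
    change (Complex.I / (2 * Real.pi)) • (L.L.dual).curv =
      (-1 : ℝ) • ((Complex.I / (2 * Real.pi)) • L.L.curv)
    rw [curv_dual, smulR_eq, smul_smul, smul_smul]
    congr 1
    push_cast
    ring
  unfold xx crd
  rw [h1, map_smul, LinearMap.smul_apply, smul_eq_mul]
  ring

theorem xx_le (hL : BlockC.EndTriv hh L j R') (hR : R' ≤ R₂) (b : Fin n × ℤ) :
    S.xx L j R₂ (endTriv_le hL hR) b = S.xx L j R' hL b := rfl

/-! ### the leaf `H1Leaf` for numerically trivial bundles -/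

/-- a numerically trivial bundle has exact curvature on the finite cyclic covers -/
theorem per_zero (hL : BlockC.EndTriv hh L j R') (h0 : ∀ b, S.xx L j R' hL b = 0) (m : ℕ)
    [NeZero m] (hm : 2 * R' ≤ m) : ∃ L' : LB (CovM hh m) L.ι, IsPer hh m L.L L' ∧
      isec L' L' = 0 ∧ ∀ K : ALB (CovM hh m), IsCanon K.L → isec K.L L' = 0 := by
  obtain ⟨L', h1, h2, h3⟩ := H.per m L j R' hL hm
  set c : ℂ := Complex.I / (2 * Real.pi) with hc
  have hpi : (Real.pi : ℂ) ≠ 0 := by exact_mod_cast Real.pi_ne_zero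
  have hc0 : c ≠ 0 := div_ne_zero Complex.I_ne_zero (mul_ne_zero two_ne_zero hpi)
  have hs := (S.form m).curv_smooth ⟨L.ι, L'⟩
  have hcl := (S.form m).curv_closed ⟨L.ι, L'⟩
  have hex : ExactTwo (c • L'.curv) := by
    refine S.orth.wrap_exact m ((S.form m).smooth_smul c _ hs) ((S.form m).closed_smul c _ hs hcl)
      (H.cl L j R' hL) (fun G hG hGc => ?_) (fun i k => ?_)
    · change pair G (c • pullM m L'.curv) = ∑ᶠ k : ℤ, pair G (shF (m * k) (c • L.L.curv))
      rw [H.pair_smul' c G _ hG (H.smooth_pull m _ hs) hGc, h3 G hG hGc, ← smul_eq_mul,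
        smul_finsum]
      refine finsum_congr fun k => ?_
      rw [shF_smul, H.pair_smul' c G _ hG (H.smooth_sh _ _ (H.curv_smooth L)) hGc, smul_eq_mul]
    · have := h0 (i, k)
      rw [xx, crd] at this
      exact neg_eq_zero.1 this
  have hex' : ExactTwo L'.curv := by
    have := (S.form m).exact_smul c⁻¹ _ hex
    rwa [smul_smul, inv_mul_cancel₀ hc0, one_smul] at this
  refine ⟨L', h1, ?_, fun K hK => ?_⟩
  · rw [isec_eq, (S.form m).pair_of_exact hex' hs hcl, mul_zero]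
  · rw [BlockC.isec_comm, isec_eq, (S.form m).pair_of_exact hex' ((S.form m).curv_smooth K)
      ((S.form m).curv_closed K), mul_zero]

open XT in
/-- **`H1Leaf` with `r = 0` for numerically trivial bundles** -/
theorem h1Leaf (D : XTData (Cov hh)) (hγ : ∀ x, D.γ x = Cov.γ x) (hf : ∀ x, D.f x = Cov.f x)
    (hY : ∀ (m : ℕ) [NeZero m], H824.RRIn (CovM hh m)) (hL : BlockC.EndTriv hh L j R')
    (h0 : ∀ b, S.xx L j R' hL b = 0) : D.H1Leaf L.L j R' 0 := by
  refine H824.h1Leaf_gen D hγ hf hY L.L j R' 0 fun m _ hm => ?_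
  obtain ⟨L', h1, h2, h3⟩ := S.per_zero hL h0 m hm
  exact ⟨L', h1, fun K hK => by rw [h2, h3 K hK]; simp⟩

end Basis

end cov

end Vale.Agent.P267.H206
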