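import Vale.Agent.P267.H206.Fa4
import Vale.Agent.P267.H206.Num2
import Vale.Agent.P267.H457.Block

/-!
# P267, GX-FACT (helper206), part 5: bundles with monic sections over the common input `BlockOut`

`MB O`: a line bundle on the cover which is trivial at both ends, with a holomorphic structure and a
monic section; products `MB.mul`, `MB.prod`; the translates `MB.base O b` of the basis bundles (with
the sections `O.bα b`); coordinates `A.x S b`. `MB.fact`: bundles with the same coordinates are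
isomorphic and their monic sections correspond to each other, in particular
`‖B.α x‖ = ‖A.α x‖ * ‖ψ x‖` with `ψ` bounded above and below on the whole cover.
-/

set_option linter.unusedVariables false
set_option linter.unusedSectionVars false

open scoped Manifold ContDiff ComplexConjugate Matrix ComplexOrder Topology
open MeasureTheory Set Filter

noncomputable section

namespace Vale.Agent.P267.H206

open FL XT H706 H158 BlockC LineX

theorem xtL_of_leaves {M : Type} [TopologicalSpace M] [ChartedSpace C2 M] {D : XTData M} {d₀ : ℝ}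
    (h : H359.AnLeaves D d₀) : XtL D d₀ :=
  ⟨h.pos, h.root, h.t0K, h.t0E, h.t0O, h.t2, h.ex, h.t1, h.h1O⟩

variable {X : Type} [TopologicalSpace X] [ChartedSpace C2 X] [IsManifold 𝓘(ℂ, C2) ω X] {n : ℕ}

/-- a line bundle on the cover which is trivial at both ends, with a monic section -/
structure MB (O : BlockOut X n) where
  L : ALB (Cov O.B.hh)
  j : L.ι
  R : ℝ
  a : Cov O.B.hh → Fin 2 → ℂ
  α : Cov O.B.hh → EuclideanSpace ℂ L.ι
  ends : O.B.D.EndTriv L.L j a R O.d₀
  mon : Monic O.B.D O.d₀ L.L a j α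

namespace MB

variable {O : BlockOut X n}

theorem d₀_pos (O : BlockOut X n) : 0 < O.d₀ := O.leaves.pos

/-- the product -/
def mul (A B : MB O) : MB O where
  L := aten A.L B.L
  j := ((A.j, B.j) : A.L.ι × B.L.ι)
  R := max A.R B.R
  a := fun y => A.a y + B.a y
  α := fun x => LB.ten (A.α x) (B.α x)
  ends := endTriv_tensor (endTriv_mono A.ends (le_max_left _ _))
    (endTriv_mono B.ends (le_max_right _ _))
  mon := Monic.ten (d₀_pos O) A.mon B.mon

/-- the trivial bundle -/
def one (O : BlockOut X n) : MB O where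
  L := ⟨Fin 1, LB.triv 0⟩
  j := (0 : Fin 1)
  R := 0
  a := fun _ => 0
  α := fun _ => eb (0 : Fin 1)
  ends := O.B.D.endTriv_triv (0 : Fin 1) 0 O.d₀
  mon := monic_triv (0 : Fin 1)

/-- the monic section of a basis bundle -/
theorem monic_full (i : Fin n) :
    Monic O.B.D O.d₀ (O.E i).L (O.a i) (O.i₀ i) (O.α i) := by
  have hf := O.full i
  have hc := hf.cone
  have hp := d₀_pos O
  obtain ⟨A, hA0, hA⟩ := hf.out
  obtain ⟨C, hC⟩ := hc.α_in
  exact ⟨hc.α_reg, hc.α_sec, hc.α_hol, ⟨A, O.Rc i, hA⟩, ⟨0, C, fun x hx => by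
    rw [zero_smul, sub_zero]; exact hC x hx⟩, hc.α_bdd⟩

/-- the translate of a basis bundle -/
def base (O : BlockOut X n) (b : Fin n × ℤ) : MB O where
  L := ⟨(O.E b.1).ι, O.bL b⟩
  j := O.i₀ b.1
  R := O.R + |(((-b.2 : ℤ)) : ℝ)|
  a := O.ba b
  α := O.bα b
  ends := endTriv_shift (d₀_pos O).le (endTriv_rate (O.full b.1).ends O.le_N₀) (-b.2)
  mon := (monic_full b.1).shift (d₀_pos O) (-b.2)

/-- the product of a list -/
def prod (l : List (MB O)) : MB O := l.foldr mul (one O)

theorem norm_mul (A B : MB O) (x : Cov O.B.hh) : ‖(A.mul B).α x‖ = ‖A.α x‖ * ‖B.α x‖ :=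
  LB.norm_ten _ _

theorem norm_one (x : Cov O.B.hh) : ‖(one O).α x‖ = 1 := norm_eb _

theorem norm_prod (l : List (MB O)) (x : Cov O.B.hh) :
    ‖(prod l).α x‖ = (l.map fun A => ‖A.α x‖).prod := by
  induction l with
  | nil => exact norm_one x
  | cons A l ih =>
    have : prod (A :: l) = A.mul (prod l) := rfl
    rw [this, norm_mul, ih, List.map_cons, List.prod_cons]

/-! ### coordinates -/

theorem endB (A : MB O) : BlockC.EndTriv O.B.hh A.L A.j A.R := fun x hx =>
  A.ends.ends x (by rwa [O.B.f_eq])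

variable {H : CovFacts O.B.hh} (S : Basis H O.E O.i₀ O.R)

/-- the coordinates -/
def x (A : MB O) (b : Fin n × ℤ) : ℝ := S.xx A.L A.j A.R A.endB b

theorem x_mul (A B : MB O) (b : Fin n × ℤ) : (A.mul B).x S b = A.x S b + B.x S b := by
  have h := S.xx_tensor (endTriv_le A.endB (le_max_left A.R B.R))
    (endTriv_le B.endB (le_max_right A.R B.R)) b
  exact h

theorem x_one (b : Fin n × ℤ) : (one O).x S b = 0 := by
  have h1 : H.cl (one O).L (one O).j (one O).R (one O).endB = 0 := by
    apply Subtype.ext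
    change (Complex.I / (2 * Real.pi)) • (LB.triv (0 : Fin 1) : LB (Cov O.B.hh) (Fin 1)).curv = 0
    have h2 : (LB.triv (0 : Fin 1) : LB (Cov O.B.hh) (Fin 1)).curv = 0 := by
      change (⟨_, _, _⟩ : TwoF (Cov O.B.hh)) = ⟨_, _, _⟩
      congr 1
      · exact funext fun x => LB.F20_triv 0 x
      · exact funext fun x => LB.F11_triv 0 x
      · exact funext fun x => LB.F02_triv 0 x
    rw [h2, smul_zero]
  rw [x, Basis.xx, crd, h1, map_zero, LinearMap.zero_apply, neg_zero]

theorem isShift_bL (b : Fin n × ℤ) : IsShift O.B.hh b.2 (O.E b.1).L (O.bL b) := by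
  intro x
  change (O.E b.1).L.P (O.B.D.sh (-b.2) (Cov.shift b.2 x)) = _
  rw [H824.sh_eq_shift O.B.D O.B.γ_eq, ← Cov.shift_add, neg_add_cancel, Cov.shift_zero]

theorem x_base (c b : Fin n × ℤ) : (base O c).x S b = if b = c then 1 else 0 := by
  have h1 : H.cl (base O c).L (base O c).j (base O c).R (base O c).endB =
      (H.g ^ c.2) (S.e c.1) :=
    H.cl_shift (S.triv c.1) (isShift_bL c) (base O c).endB
  rw [x, Basis.xx, crd, h1, S.orth.dot']
  have h2 : (c.1 = b.1 ∧ c.2 = b.2) ↔ b = c := by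
    rw [Prod.ext_iff]; exact and_congr eq_comm eq_comm
  simp only [h2]
  split_ifs <;> simp

theorem x_prod (l : List (MB O)) (b : Fin n × ℤ) :
    (prod l).x S b = (l.map fun A => A.x S b).sum := by
  induction l with
  | nil => exact x_one S b
  | cons A l ih =>
    have : prod (A :: l) = A.mul (prod l) := rfl
    rw [this, x_mul, ih, List.map_cons, List.sum_cons]

/-- the product of the translates `b ∈ I` -/
def finprod (O : BlockOut X n) (I : Finset (Fin n × ℤ)) : MB O := prod (I.toList.map (base O))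

theorem norm_finprod (I : Finset (Fin n × ℤ)) (x : Cov O.B.hh) :
    ‖(finprod O I).α x‖ = ∏ b ∈ I, ‖O.bα b x‖ := by
  rw [finprod, norm_prod, List.map_map, Finset.prod_eq_multiset_prod]
  have : (Multiset.map (fun b => ‖O.bα b x‖) I.val).prod =
      (I.toList.map fun b => ‖O.bα b x‖).prod := by
    rw [← Multiset.prod_coe, ← Multiset.map_coe, Finset.coe_toList]
  rw [this]
  rfl

theorem x_finprod (I : Finset (Fin n × ℤ)) (b : Fin n × ℤ) :
    (finprod O I).x S b = if b ∈ I then 1 else 0 := by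
  rw [finprod, x_prod, List.map_map]
  have h1 : ((fun A : MB O => A.x S b) ∘ base O) = fun c => if b = c then (1 : ℝ) else 0 :=
    funext fun c => x_base S c b
  rw [h1]
  have h2 : (Multiset.map (fun c => if b = c then (1 : ℝ) else 0) I.val).sum =
      (I.toList.map fun c => if b = c then (1 : ℝ) else 0).sum := by
    rw [← Multiset.sum_coe, ← Multiset.map_coe, Finset.coe_toList]
  rw [← h2, ← Finset.sum_eq_multiset_sum, Finset.sum_ite_eq]

/-! ### bundles with the same coordinates -/

/-- **FACT.** -/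
theorem fact [Nonempty (Cov O.B.hh)] (A B : MB O) (h : ∀ b, A.x S b = B.x S b) :
    ∃ ψ : Cov O.B.hh → EuclideanSpace ℂ (A.L.ι × B.L.ι),
      Monic O.B.D O.d₀ (A.L.L.dual.tensor B.L.L) (fun y j => -A.a y j + B.a y j) (A.j, B.j) ψ ∧
      (∀ x, ψ x ≠ 0) ∧ (∀ x, ctL (A.α x) (ψ x) = B.α x) ∧ (∀ x, ‖B.α x‖ = ‖A.α x‖ * ‖ψ x‖) ∧
      ∃ c C : ℝ, 0 < c ∧ ∀ x, c ≤ ‖ψ x‖ ∧ ‖ψ x‖ ≤ C := by
  have hA := endTriv_le A.endB (le_max_left A.R B.R)
  have hB := endTriv_le B.endB (le_max_right A.R B.R)
  have hT := endTriv_aten (endTriv_adual hA) hB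
  have h0 : ∀ b, S.xx (aten (adual A.L) B.L) ((A.j, B.j) : A.L.ι × B.L.ι) (max A.R B.R) hT b = 0 := by
    intro b
    have h1 := S.xx_tensor (endTriv_adual hA) hB b
    have h2 := S.xx_dual hA b
    have h3 : S.xx A.L A.j (max A.R B.R) hA b = S.xx B.L B.j (max A.R B.R) hB b := h b
    rw [h2, h3, neg_add_cancel] at h1
    exact h1
  have h0' : ∀ b, S.xx (adual (aten (adual A.L) B.L)) ((A.j, B.j) : A.L.ι × B.L.ι) (max A.R B.R)
      (endTriv_adual hT) b = 0 := by
    intro b
    have h1 := S.xx_dual hT b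
    exact h1.trans (neg_eq_zero.2 (h0 b))
  exact XtL.fact (xtL_of_leaves O.leaves) (endTriv_mono A.ends (le_max_left _ _))
    (endTriv_mono B.ends (le_max_right _ _))
    (S.h1Leaf O.B.D O.B.γ_eq O.B.f_eq O.rr hT h0)
    (S.h1Leaf O.B.D O.B.γ_eq O.B.f_eq O.rr (endTriv_adual hT) h0') A.mon B.mon

/-- **A numerically trivial bundle has a section without zeros as monic section.** -/
theorem triv [Nonempty (Cov O.B.hh)] (A : MB O) (h : ∀ b, A.x S b = 0) (x : Cov O.B.hh) :
    A.α x ≠ 0 := by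
  obtain ⟨ψ, -, h1, -, h2, -⟩ := fact S (one O) A fun b => by rw [x_one, h b]
  rw [← norm_ne_zero_iff, h2 x, norm_one, one_mul, norm_ne_zero_iff]
  exact h1 x

end MB

end Vale.Agent.P267.H206
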