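import Vale.Agent.P267.H706.Alpha
import Vale.Agent.P267.H877.XtCore
import Vale.Agent.P267.H399.LBCalc

/-!
# P267, GX-FACT (helper206), part 1: change of the holomorphic structure on a bundle which is
trivial at the ends; degree one vanishing for every structure
-/

set_option linter.unusedVariables false
set_option linter.unusedSectionVars false

open scoped Manifold ContDiff ComplexConjugate Matrix ComplexOrder Topology
open MeasureTheory Set Filter

noncomputable section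

namespace Vale.Agent.P267.H206

open FL XT H706

variable {M : Type} [TopologicalSpace M] [ChartedSpace C2 M] [IsManifold 𝓘(ℂ, C2) ω M]
  {D : XTData M}
variable {ι : Type} [Fintype ι] [DecidableEq ι]

/-- The vanishing theorems on the infinite cyclic cover. The constants are as in
`XTData.exists_xtCone`: `d = d₀ / 4`, `d' = d₀ / 2`, `N = d₀`. -/
structure XtL (D : XTData M) (d₀ : ℝ) : Prop where
  pos : 0 < d₀
  root : ∀ t, 0 < t → t ≤ d₀ → D.RootGap t
  t0K : D.T0KLeaf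
  t0E : D.T0ELeaf
  t0O : D.T0OLeaf d₀
  t2 : D.T2Leaf
  ex : D.ExLeaf
  t1 : D.T1Leaf
  h1O : ∀ (ι : Type) [Fintype ι] [DecidableEq ι] (i₀ : ι) (R : ℝ),
    D.H1Leaf (LB.triv i₀ : LB M ι) i₀ R 0

namespace XtL

variable {d₀ : ℝ} (H : XtL D d₀)

include H

theorem t1_neg {L : LB M ι} {i₀ : ι} {a : M → Fin 2 → ℂ} {R : ℝ} {m₀ : ℕ}
    {Lm : ℕ → LB M ι} {am : ℕ → M → Fin 2 → ℂ} (hE : D.EndTriv L i₀ a R d₀)
    (hP : D.PerSeq L i₀ a d₀ m₀ Lm am) {r : ℕ} (hH1 : D.H1Leaf L i₀ R r) :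
    D.T1 L a (-(d₀ / 4)) r := by
  have hd : 0 < d₀ / 4 := by linarith [H.pos]
  refine XTData.t1_gen H.t0K H.t2 H.t1 H.pos hE hP _ r ?_ hH1
  obtain ⟨m₁, C, hC, -, h⟩ := H.t0E ι L i₀ a R d₀ m₀ Lm am H.pos hE hP _ hd
  exact ⟨m₁, C, hC, h⟩

theorem t1O_neg : T1s D (-(d₀ / 4)) :=
  t1s_of_T1 D (i₀ := (0 : Fin 1)) (H.t1_neg (R := 0) (D.endTriv_triv _ _ d₀) (D.perSeq_triv _ d₀)
    (H.h1O _ _ _))

theorem t1O_pos {δ : ℝ} (hδ : 0 < δ) (hδ' : δ ≤ d₀ / 2) : T1s D δ := by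
  refine t1s_of_T1 D (i₀ := (0 : Fin 1)) (XTData.t1_gen H.t0K H.t2 H.t1 H.pos
    (D.endTriv_triv _ 0 d₀) (D.perSeq_triv _ d₀) _ 0 ?_ (H.h1O _ _ _))
  obtain ⟨C, hC, h⟩ := H.t0O (Fin 1) 0 δ hδ (by linarith [H.pos])
  exact ⟨0, C, hC, fun m _ => h⟩

/-- **Change of structure.** Two structures on a bundle which is trivial at the ends are
isomorphic, by `e^u`, `u → 0` at the outer end, `u → b` at the inner end. -/
theorem exists_gauge {L : LB M ι} {i₀ : ι} {a a' : M → Fin 2 → ℂ} {R R' : ℝ}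
    (hE : D.EndTriv L i₀ a R d₀) (hE' : D.EndTriv L i₀ a' R' d₀) :
    ∃ u : M → ℂ, Reg0 ∞ 0 u ∧ (∀ x i, dbar0 0 u x i = a' x i - a x i) ∧
      (∃ A, ∀ x, ‖u x‖ ≤ A * Real.exp (-(d₀ / 4) * D.f x)) ∧
      ∃ (b : ℂ) (A : ℝ), ∀ x, D.f x ≤ 0 → ‖u x - b‖ ≤ A * Real.exp (d₀ / 2 * D.f x) := by
  have hp := H.pos
  obtain ⟨C, hC⟩ := hE.decay
  obtain ⟨C', hC'⟩ := hE'.decay
  have hn : ∀ x, n1 D.h 0 (fun y => a' y - a y) x ≤
      (|C| + |C'|) * Real.exp (-(d₀ * |D.f x|)) := by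
    intro x
    have h1 := n1_add_le D.herm 0 a' (fun y i => (-1 : ℂ) * a y i) x
    have h2 : n1 D.h 0 (fun y i => (-1 : ℂ) * a y i) x = n1 D.h 0 a x := by
      have := n1_smul (h := D.h) 0 (fun _ => (-1 : ℂ)) a x
      rw [norm_neg, norm_one, one_mul] at this
      rw [← this]
      rfl
    have h3 : (fun y => a' y - a y) = fun y i => a' y i + (-1 : ℂ) * a y i := by
      funext y i
      simp [sub_eq_add_neg]
    rw [h3]
    refine h1.trans ?_
    rw [h2]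
    have e := Real.exp_pos (-(d₀ * |D.f x|))
    nlinarith [hC x, hC' x, mul_le_mul_of_nonneg_right (le_abs_self C) e.le,
      mul_le_mul_of_nonneg_right (le_abs_self C') e.le]
  have hK : 0 ≤ |C| + |C'| := by positivity
  have hreg : Reg1 ∞ 0 (fun y => a' y - a y) := by
    rw [reg1_iff_at]
    intro x
    exact (hE'.hol.smooth.at x).sub (hE.hol.smooth.at x)
  have hcl : ∀ x, dbar1 0 (fun y => a' y - a y) x = 0 := fun x =>
    hE.hol.sub_closed hE'.hol x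
  obtain ⟨u, hu, ⟨A, hA⟩, hdu⟩ := H.t1O_neg (fun y => a' y - a y) hreg
    ⟨|C| + |C'|, fun x => (hn x).trans (mul_le_mul_of_nonneg_left (Real.exp_le_exp.2 (by
      nlinarith [abs_nonneg (D.f x), le_abs_self (D.f x), neg_abs_le (D.f x)])) hK)⟩ hcl
  refine ⟨u, hu, fun x i => by rw [hdu x i]; rfl, ⟨A, hA⟩, ?_⟩
  obtain ⟨b, A', h⟩ := lim_in D (H.root (d₀ / 2) (by linarith) (by linarith)) (ε := d₀ / 2)
    (by linarith) le_rfl (H.t1O_pos (by linarith) le_rfl) hu (C := |A|) (fun x hx => by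
      refine (hA x).trans (mul_le_mul (le_abs_self _) (Real.exp_le_exp.2 ?_)
        (Real.exp_pos _).le (abs_nonneg _))
      nlinarith) (C' := |C| + |C'|) (fun x hx => by
      have h1 : n1 D.h 0 (dbar0 0 u) x = n1 D.h 0 (fun y => a' y - a y) x := by
        have : dbar0 0 u x = (fun y => a' y - a y) x := by
          funext i
          rw [hdu x i]
        simp only [n1, nsq1, this]
      rw [h1]
      refine (hn x).trans (mul_le_mul_of_nonneg_left (Real.exp_le_exp.2 ?_) hK)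
      rw [abs_of_nonpos hx]
      nlinarith)
  exact ⟨b, A', h⟩

end XtL

/-- pointwise form of the bound of profiles -/
theorem p1_bound_iff {V : Type*} [NormedAddCommGroup V] [InnerProductSpace ℂ V]
    {g : M → Fin 2 → V} (hg : Reg1 ∞ 0 g) {δ : ℝ} :
    (∃ A, ∀ j, D.p1 0 g j ≤ A * ew δ j) ↔
      ∃ A, 0 ≤ A ∧ ∀ x, n1 D.h 0 g x ≤ A * Real.exp (δ * D.f x) := by
  constructor
  · rintro ⟨A, hA⟩
    refine ⟨|A| * Real.exp |δ|, by positivity, fun x => ?_⟩
    exact le_of_prof_ew D (continuous_n1 D.herm hg) hA x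
  · rintro ⟨A, hA0, hA⟩
    exact ⟨_, prof_le_ew D hA0 hA⟩

theorem p0_bound_iff {V : Type*} [NormedAddCommGroup V] [InnerProductSpace ℂ V]
    {g : M → V} (hg : Reg0 ∞ 0 g) {δ : ℝ} :
    (∃ A, ∀ j, D.p0 0 g j ≤ A * ew δ j) ↔
      ∃ A, 0 ≤ A ∧ ∀ x, ‖g x‖ ≤ A * Real.exp (δ * D.f x) := by
  constructor
  · rintro ⟨A, hA⟩
    refine ⟨|A| * Real.exp |δ|, by positivity, fun x => ?_⟩
    have := le_of_prof_ew D (continuous_n0 D.herm hg) hA x
    rwa [n0_zero_exp] at this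
  · rintro ⟨A, hA0, hA⟩
    exact ⟨_, prof_le_ew D hA0 fun x => by rw [n0_zero_exp]; exact hA x⟩

/-- degree one vanishing is invariant under bounded changes of structure -/
theorem t1_gauge {L : LB M ι} {a : M → Fin 2 → ℂ} {δ : ℝ} {r : ℕ} (hT : D.T1 L a δ r)
    {u : M → ℂ} (hu : Reg0 ∞ 0 u) {K : ℝ} (hK : ∀ x, ‖u x‖ ≤ K) :
    D.T1 L (fun y j => a y j + dbar0 0 u y j) δ r := by
  have hexp : ∀ x, ‖Complex.exp (u x)‖ ≤ Real.exp K := fun x => by
    rw [Complex.norm_exp]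
    exact Real.exp_le_exp.2 ((Complex.re_le_norm _).trans (hK x))
  have hexp' : ∀ x, ‖Complex.exp (-u x)‖ ≤ Real.exp K := fun x => by
    rw [Complex.norm_exp]
    refine Real.exp_le_exp.2 ((Complex.re_le_norm _).trans ?_)
    rw [norm_neg]
    exact hK x
  have hu' : Reg0 ∞ 0 (fun y => -u y) := by
    rw [reg0_iff_at]
    exact fun x => (hu.at x).neg
  intro g hg
  set g' : Fin (r + 1) → M → Fin 2 → EuclideanSpace ℂ ι :=
    fun k y i => Complex.exp (u y) • g k y i with hg'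
  have hreg' : ∀ k, Reg1 ∞ 0 (g' k) := by
    intro k
    rw [reg1_iff_at]
    intro x
    exact At1.smul ((hu.at x).cexp) (((hg k).1).at x)
  obtain ⟨c, hc, v, hv, hvs, hvb, hvd⟩ := hT g' fun k => by
    obtain ⟨h1, h2, h3, h4⟩ := hg k
    refine ⟨hreg' k, fun x i => ?_, ?_, fun x => ?_⟩
    · simp only [hg', LB.act_smul, h2 x i]
    · rw [p1_bound_iff (hreg' k)]
      obtain ⟨A, hA0, hA⟩ := (p1_bound_iff h1).1 h3
      refine ⟨Real.exp K * A, by positivity, fun x => ?_⟩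
      have h5 : n1 D.h 0 (g' k) x = ‖Complex.exp (u x)‖ * n1 D.h 0 (g k) x :=
        n1_smul (h := D.h) 0 (fun y => Complex.exp (u y)) (g k) x
      rw [h5, mul_assoc]
      exact mul_le_mul (hexp x) (hA x) (n1_nonneg D.herm _ _ _) (Real.exp_pos _).le
    · have := LB.db1_exp (L := L) (a := a) ((hu.at x).of_le one_le_infty)
        ((h1.at x).of_le one_le_infty) (h2 x)
      rw [hg']
      simp only
      rw [this, h4 x, smul_zero]
  have hvr : Reg0 ∞ 0 (fun y => Complex.exp (-u y) • v y) := by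
    rw [reg0_iff_at]
    exact fun x => ((hu'.at x).cexp).smul (hv.at x)
  refine ⟨c, hc, fun y => Complex.exp (-u y) • v y, hvr, fun x => ?_, ?_, fun x i => ?_⟩
  · rw [LB.act_smul, hvs x]
  · rw [p0_bound_iff hvr]
    obtain ⟨A, hA0, hA⟩ := (p0_bound_iff hv).1 hvb
    refine ⟨Real.exp K * A, by positivity, fun x => ?_⟩
    rw [norm_smul, mul_assoc]
    exact mul_le_mul (hexp' x) (hA x) (norm_nonneg _) (Real.exp_pos _).le
  · have h1 := LB.db0_exp (L := L) (a := fun y j => a y j + dbar0 0 u y j)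
      ((hu'.at x).of_le one_le_infty) ((hv.at x).of_le one_le_infty) (hvs x) i
    have h2 : L.db0 (fun y j => (a y j + dbar0 0 u y j) + dbar0 0 (fun y => -u y) y j) 0 v x i =
        L.db0 a 0 v x i := by
      have h3 : dbar0 0 (fun y => -u y) x i = -dbar0 0 u x i :=
        congrFun (dbar0_neg ((hu.at x).of_le one_le_infty)) i
      simp only [LB.db0]
      rw [h3, add_neg_cancel_right]
    rw [h1, h2, hvd x i, Finset.smul_sum]
    refine Finset.sum_congr rfl fun k _ => ?_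
    simp only [hg']
    rw [smul_smul, smul_smul, mul_comm (Complex.exp (-u x)) (c k), mul_assoc,
      ← Complex.exp_add, neg_add_cancel, Complex.exp_zero, mul_one]

/-- a gauge function with limits at both ends is bounded -/
theorem bdd_gauge {d₀ : ℝ} (hp : 0 < d₀) {u : M → ℂ} {A A' : ℝ} {b : ℂ}
    (hA : ∀ x, ‖u x‖ ≤ A * Real.exp (-(d₀ / 4) * D.f x))
    (hA' : ∀ x, D.f x ≤ 0 → ‖u x - b‖ ≤ A' * Real.exp (d₀ / 2 * D.f x)) (x : M) :
    ‖u x‖ ≤ |A| + (‖b‖ + |A'|) := by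
  rcases le_total 0 (D.f x) with hx | hx
  · have h2 : Real.exp (-(d₀ / 4) * D.f x) ≤ 1 := by
      apply Real.exp_le_one_iff.2
      nlinarith
    have h3 : A * Real.exp (-(d₀ / 4) * D.f x) ≤ |A| := by
      have := mul_le_mul (le_abs_self A) h2 (Real.exp_pos _).le (abs_nonneg A)
      linarith
    have h4 := abs_nonneg A'
    linarith [hA x, norm_nonneg b]
  · have h2 : Real.exp (d₀ / 2 * D.f x) ≤ 1 := by
      apply Real.exp_le_one_iff.2
      nlinarith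
    have h3 : A' * Real.exp (d₀ / 2 * D.f x) ≤ |A'| := by
      have := mul_le_mul (le_abs_self A') h2 (Real.exp_pos _).le (abs_nonneg A')
      linarith
    have h4 : ‖u x‖ ≤ ‖u x - b‖ + ‖b‖ := by
      have := norm_add_le (u x - b) b
      rwa [sub_add_cancel] at this
    linarith [hA' x hx, abs_nonneg A]

/-- **Uniqueness**: no nonzero holomorphic section of weight `-d` -/
theorem XtL.van {d₀ : ℝ} (H : XtL D d₀) {L : LB M ι} {i₀ : ι} {a : M → Fin 2 → ℂ} {R : ℝ}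
    (hE : D.EndTriv L i₀ a R d₀) {v : M → EuclideanSpace ℂ ι} (hv : Reg0 ∞ 0 v) (hs : L.Sec v)
    (hd : ∀ x i, L.db0 a 0 v x i = 0) {A : ℝ} (hA0 : 0 ≤ A)
    (hA : ∀ x, ‖v x‖ ≤ A * Real.exp (-(d₀ / 4) * D.f x)) : v = 0 := by
  have hp := H.pos
  obtain ⟨a₂, m₀, Lm, am, hE₂, hP₂⟩ := H.ex ι L i₀ R hE.ends d₀ H.pos
  obtain ⟨u, hu, hdu, ⟨A₁, hA₁⟩, b, A', hA'⟩ := H.exists_gauge hE₂ hE
  obtain ⟨m₁, C, hC, hT, -⟩ := H.t0E ι L i₀ a₂ R d₀ m₀ Lm am hp hE₂ hP₂ (d₀ / 4) (by linarith)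
  set K : ℝ := |A₁| + (‖b‖ + |A'|) with hK
  have huK : ∀ x, ‖u x‖ ≤ K := fun x => bdd_gauge hp hA₁ hA' x
  have hvr : Reg0 ∞ 0 (fun y => Complex.exp (u y) • v y) := by
    rw [reg0_iff_at]
    exact fun x => ((hu.at x).cexp).smul (hv.at x)
  have hdv : ∀ x i, L.db0 a₂ 0 (fun y => Complex.exp (u y) • v y) x i = 0 := by
    intro x i
    rw [LB.db0_exp ((hu.at x).of_le one_le_infty) ((hv.at x).of_le one_le_infty) (hs x) i]
    have h3 : (fun y j => a₂ y j + dbar0 0 u y j) = a := by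
      funext y j
      rw [hdu y j]
      ring
    rw [h3, hd x i, smul_zero]
  have h0 : ∀ j, D.p1 0 (L.db0 a₂ 0 (fun y => Complex.exp (u y) • v y)) j ≤
      0 * ew (-(d₀ / 4)) j := by
    intro j
    have h1 : L.db0 a₂ 0 (fun y => Complex.exp (u y) • v y) = fun _ _ => 0 := by
      funext x i; exact hdv x i
    have : n1 D.h 0 (L.db0 a₂ 0 (fun y => Complex.exp (u y) • v y)) = fun _ => 0 := by
      funext x
      rw [h1, n1_zero_form]
    rw [XTData.p1, this, zero_mul]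
    exact D.prof_le le_rfl fun x _ => le_rfl
  have hb := (p0_bound_iff (D := D) hvr (δ := -(d₀ / 4))).2 ⟨Real.exp K * A, by positivity,
    fun x => by
      rw [norm_smul, mul_assoc]
      refine mul_le_mul ?_ (hA x) (norm_nonneg _) (Real.exp_pos _).le
      rw [Complex.norm_exp]
      exact Real.exp_le_exp.2 ((Complex.re_le_norm _).trans (huK x))⟩
  have h1 := hT _ hvr (fun x => by rw [LB.act_smul, hs x]) hb 0 h0
  have h2 := XTData.eq_zero_of_p0 hvr (fun j => by simpa using h1 j)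
  funext x
  have h3 := congrFun h2 x
  simp only [Pi.zero_apply] at h3 ⊢
  exact (smul_eq_zero.1 h3).resolve_left (Complex.exp_ne_zero _)

/-- **Degree one vanishing for every structure.** -/
theorem XtL.t1_any {d₀ : ℝ} (H : XtL D d₀) {L : LB M ι} {i₀ : ι} {a : M → Fin 2 → ℂ} {R : ℝ}
    (hE : D.EndTriv L i₀ a R d₀) {r : ℕ} (hH1 : D.H1Leaf L i₀ R r) :
    D.T1 L a (-(d₀ / 4)) r := by
  have hp := H.pos
  obtain ⟨a₂, m₀, Lm, am, hE₂, hP₂⟩ := H.ex ι L i₀ R hE.ends d₀ H.pos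
  obtain ⟨u, hu, hdu, ⟨A, hA⟩, b, A', hA'⟩ := H.exists_gauge hE₂ hE
  have h1 := H.t1_neg hE₂ hP₂ hH1
  have hK : ∀ x, ‖u x‖ ≤ |A| + (‖b‖ + |A'|) := fun x => bdd_gauge hp hA hA' x
  have h2 := t1_gauge h1 hu hK
  have h3 : (fun y j => a₂ y j + dbar0 0 u y j) = a := by
    funext y j
    rw [hdu y j]
    ring
  rwa [h3] at h2

end Vale.Agent.P267.H206
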