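import Vale.Agent.P267.H206.Fa1
import Vale.Agent.P267.H399.LBTensor

/-!
# P267, GX-FACT (helper206), part 2: monic sections on the infinite cyclic cover

`Monic D d₀ L a i₀ α`: `α` is a holomorphic section of `(L, a)` which tends to the basis vector `i₀`
at the outer end and to a multiple `b` of it at the inner end.
* `XtL.exists_monic`: existence if `χ = 0`; `Monic.unique`: uniqueness; `Monic.ten`: products;
* `XtL.triv`: if `χ = 0` for `L` and its dual then `α` has no zeros (and `b ≠ 0`);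
* `XtL.fact`: if `χ = 0` for `L₁^* ⊗ L₂` and its dual then the monic sections `α₁`, `α₂` correspond to
  each other under a holomorphic isomorphism `L₁ → L₂`, bounded above and below.
-/

set_option linter.unusedVariables false
set_option linter.unusedSectionVars false

open scoped Manifold ContDiff ComplexConjugate Matrix ComplexOrder Topology
open MeasureTheory Set Filter

noncomputable section

namespace Vale.Agent.P267.H206

open FL XT H706

variable {M : Type} [TopologicalSpace M] [ChartedSpace C2 M] [IsManifold 𝓘(ℂ, C2) ω M]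
  {D : XTData M}
variable {ι : Type} [Fintype ι] [DecidableEq ι] {ι' : Type} [Fintype ι'] [DecidableEq ι']

/-! ### tensor products of bundles which are trivial at the ends -/

theorem ten_eb (i₀ : ι) (i₀' : ι') :
    LB.ten (eb i₀ : EuclideanSpace ℂ ι) (eb i₀' : EuclideanSpace ℂ ι') = eb (i₀, i₀') := by
  ext p
  obtain ⟨p1, p2⟩ := p
  rw [LB.ten_apply]
  simp only [EuclideanSpace.single_apply, Prod.mk.injEq]
  split_ifs <;> simp_all

theorem kron_single (i₀ : ι) (i₀' : ι') :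
    Matrix.kroneckerMap (· * ·) (Matrix.single i₀ i₀ (1 : ℂ)) (Matrix.single i₀' i₀' (1 : ℂ)) =
      Matrix.single (i₀, i₀') (i₀, i₀') 1 := by
  ext ⟨p, p'⟩ ⟨q, q'⟩
  simp only [Matrix.kroneckerMap_apply, Matrix.single_apply, Prod.mk.injEq]
  by_cases h1 : i₀ = p
  · by_cases h2 : i₀ = q
    · by_cases h3 : i₀' = p'
      · by_cases h4 : i₀' = q'
        · subst h1 h3 h4
          simp [← h2]
        · simp [h4]
      · simp [h3]
    · simp [h2]
  · simp [h1]

theorem endTriv_mono {L : LB M ι} {i₀ : ι} {a : M → Fin 2 → ℂ} {R R' N : ℝ}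
    (h : D.EndTriv L i₀ a R N) (hR : R ≤ R') : D.EndTriv L i₀ a R' N :=
  ⟨h.hol, fun x hx => h.ends x (hR.trans hx), h.decay, h.decay'⟩

theorem del1_add' {a b : M → Fin 2 → ℂ} {x : M} (ha : At1 1 0 a x) (hb : At1 1 0 b x) :
    del1 (fun y => a y + b y) x = del1 a x + del1 b x := by
  ext i j
  have h1 := ha.diff' le_rfl j
  have h2 := hb.diff' le_rfl j
  simp only [del1, Matrix.of_apply, Matrix.add_apply]
  have h3 : (fun z => loc1 0 (chartAt C2 x) (fun y => a y + b y) z j) =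
      fun z => loc1 0 (chartAt C2 x) a z j + loc1 0 (chartAt C2 x) b z j := by
    funext z
    simp only [loc1, Pi.add_apply, smul_add, Finset.sum_add_distrib]
  rw [h3, dz, dz, dz, fderiv_fun_add h1 h2]
  simp only [add_apply, smul_add, smul_sub]
  ring

theorem endTriv_tensor {L : LB M ι} {L' : LB M ι'} {i₀ : ι} {i₀' : ι'} {a a' : M → Fin 2 → ℂ}
    {R N : ℝ} (h : D.EndTriv L i₀ a R N) (h' : D.EndTriv L' i₀' a' R N) :
    D.EndTriv (L.tensor L') (i₀, i₀') (fun y => a y + a' y) R N where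
  hol := h.hol.tensor h'.hol
  ends x hx := by
    change Matrix.kroneckerMap (· * ·) (L.P x) (L'.P x) = _
    rw [h.ends x hx, h'.ends x hx, kron_single]
  decay := by
    obtain ⟨C, hC⟩ := h.decay
    obtain ⟨C', hC'⟩ := h'.decay
    refine ⟨C + C', fun x => ?_⟩
    have h1 := n1_add_le D.herm 0 a a' x
    have h2 : (fun y => a y + a' y) = fun y i => a y i + a' y i := rfl
    rw [h2]
    refine h1.trans ?_
    rw [add_mul]
    exact add_le_add (hC x) (hC' x)
  decay' := by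
    obtain ⟨C, hC⟩ := h.decay'
    obtain ⟨C', hC'⟩ := h'.decay'
    refine ⟨C + C', fun x => ?_⟩
    have h1 := del1_add' ((h.hol.smooth.at x).of_le one_le_infty)
      ((h'.hol.smooth.at x).of_le one_le_infty)
    have h2 : trh D.h (del1 fun y => a y + a' y) x = trh D.h (del1 a) x + trh D.h (del1 a') x := by
      simp only [trh, h1, mul_add, Matrix.trace_add]
    rw [h2, add_mul]
    exact (norm_add_le _ _).trans (add_le_add (hC x) (hC' x))

/-! ### monic sections -/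

/-- monic holomorphic sections -/
structure Monic (D : XTData M) (d₀ : ℝ) (L : LB M ι) (a : M → Fin 2 → ℂ) (i₀ : ι)
    (α : M → EuclideanSpace ℂ ι) : Prop where
  reg : Reg0 ∞ 0 α
  sec : L.Sec α
  hol : ∀ x i, L.db0 a 0 α x i = 0
  out : ∃ A R : ℝ, ∀ x, R ≤ D.f x → ‖α x - eb i₀‖ ≤ A * Real.exp (-(d₀ / 4) * D.f x)
  inn : ∃ (b : ℂ) (A : ℝ), ∀ x, D.f x ≤ 0 → ‖α x - b • eb i₀‖ ≤ A * Real.exp (d₀ / 2 * D.f x)
  bdd : ∃ A : ℝ, ∀ x, ‖α x‖ ≤ A

theorem XtL.exists_monic {d₀ : ℝ} (H : XtL D d₀) {L : LB M ι} {i₀ : ι} {a : M → Fin 2 → ℂ}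
    {R : ℝ} (hE : D.EndTriv L i₀ a R d₀) (hH1 : D.H1Leaf L i₀ R 0) :
    ∃ α, Monic D d₀ L a i₀ α := by
  have hp := H.pos
  obtain ⟨α, b, R₀, A, hR₀, hRR, hA0, hreg, hsec, hhol, hout, hbd, hinn⟩ :=
    exists_alpha D (d := d₀ / 4) (d' := d₀ / 2) (N := d₀) (by linarith) (by linarith)
      (by linarith) hE
      (H.root (d₀ / 2) (by linarith) (by linarith)) (H.t1_any hE hH1)
      (H.t1O_pos (by linarith) le_rfl)
  have hcont : Continuous (fun x => ‖α x‖) := hreg.continuous.norm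
  obtain ⟨C₂, hC₂, hC₂'⟩ := bdd_on D hcont (-R₀) 0
  have hin : ∀ x, D.f x ≤ -R₀ → α x = α x i₀ • eb i₀ := by
    intro x hx
    have hP : L.P x = Matrix.single i₀ i₀ 1 := by
      apply hE.ends
      rw [abs_of_nonpos (by linarith)]
      linarith
    have := hsec x
    rw [hP, act_single] at this
    exact this.symm
  have hbig : ∀ x, D.f x ≤ 0 → ‖α x - b • eb i₀‖ ≤
      (A + (C₂ + ‖b‖) * Real.exp (d₀ / 2 * R₀)) * Real.exp (d₀ / 2 * D.f x) := by
    intro x hx
    have he := Real.exp_pos (d₀ / 2 * D.f x)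
    have hb0 := norm_nonneg b
    rcases le_total (D.f x) (-R₀) with h | h
    · rw [hin x h, ← sub_smul, norm_smul, norm_eb, mul_one]
      refine (hinn x hx).trans (mul_le_mul_of_nonneg_right ?_ he.le)
      have : 0 ≤ (C₂ + ‖b‖) * Real.exp (d₀ / 2 * R₀) := by positivity
      linarith
    · have h1 : ‖α x - b • eb i₀‖ ≤ C₂ + ‖b‖ := by
        refine (norm_sub_le _ _).trans (add_le_add (hC₂' x h hx) ?_)
        rw [norm_smul, norm_eb, mul_one]
      have h2 : 1 ≤ Real.exp (d₀ / 2 * R₀) * Real.exp (d₀ / 2 * D.f x) := by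
        rw [← Real.exp_add]
        apply Real.one_le_exp
        nlinarith
      have h3 : 0 ≤ C₂ + ‖b‖ := by positivity
      have h4 : 0 ≤ A * Real.exp (d₀ / 2 * D.f x) := by positivity
      nlinarith
  refine ⟨α, hreg, hsec, hhol, ⟨A, R₀, fun x hx => ?_⟩, ⟨b, _, hbig⟩,
    ⟨A + (‖b‖ + (A + (C₂ + ‖b‖) * Real.exp (d₀ / 2 * R₀))), fun x => ?_⟩⟩
  · exact hout x hx
  · have hpos : 0 ≤ (C₂ + ‖b‖) * Real.exp (d₀ / 2 * R₀) := by positivity
    have hb0 := norm_nonneg b
    rcases le_total 0 (D.f x) with hx | hx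
    · linarith [hbd x hx]
    · have h1 := hbig x hx
      have h2 : Real.exp (d₀ / 2 * D.f x) ≤ 1 := by
        apply Real.exp_le_one_iff.2
        nlinarith
      have h3 : ‖α x‖ ≤ ‖α x - b • eb i₀‖ + ‖b • (eb i₀ : EuclideanSpace ℂ ι)‖ := by
        have := norm_add_le (α x - b • eb i₀) (b • (eb i₀ : EuclideanSpace ℂ ι))
        rwa [sub_add_cancel] at this
      rw [norm_smul, norm_eb, mul_one] at h3
      have h4 : (A + (C₂ + ‖b‖) * Real.exp (d₀ / 2 * R₀)) * Real.exp (d₀ / 2 * D.f x) ≤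
          (A + (C₂ + ‖b‖) * Real.exp (d₀ / 2 * R₀)) := by
        have h5 : 0 ≤ A + (C₂ + ‖b‖) * Real.exp (d₀ / 2 * R₀) := by linarith
        nlinarith
      linarith

/-- a bounded function which is `O(e^{-d f})` outward is `O(e^{-d f})` everywhere -/
theorem bound_all {V : Type*} [NormedAddCommGroup V] {v : M → V} {d A B R : ℝ} (hd : 0 ≤ d)
    (hA : ∀ x, R ≤ D.f x → ‖v x‖ ≤ A * Real.exp (-d * D.f x)) (hB : ∀ x, ‖v x‖ ≤ B) :
    ∃ K, 0 ≤ K ∧ ∀ x, ‖v x‖ ≤ K * Real.exp (-d * D.f x) := by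
  refine ⟨|A| + |B| * Real.exp (d * |R|), by positivity, fun x => ?_⟩
  have he := Real.exp_pos (-d * D.f x)
  rcases le_total R (D.f x) with hx | hx
  · refine (hA x hx).trans (mul_le_mul_of_nonneg_right ?_ he.le)
    have : 0 ≤ |B| * Real.exp (d * |R|) := by positivity
    linarith [le_abs_self A]
  · have h1 : 1 ≤ Real.exp (d * |R|) * Real.exp (-d * D.f x) := by
      rw [← Real.exp_add]
      apply Real.one_le_exp
      have := le_abs_self R
      nlinarith
    have h2 : |B| ≤ |B| * (Real.exp (d * |R|) * Real.exp (-d * D.f x)) :=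
      le_mul_of_one_le_right (abs_nonneg B) h1
    have h3 : 0 ≤ |A| * Real.exp (-d * D.f x) := by positivity
    calc ‖v x‖ ≤ |B| := (hB x).trans (le_abs_self B)
      _ ≤ _ := by nlinarith

theorem Monic.unique {d₀ : ℝ} (H : XtL D d₀) {L : LB M ι} {i₀ : ι} {a : M → Fin 2 → ℂ} {R : ℝ}
    (hE : D.EndTriv L i₀ a R d₀) {α β : M → EuclideanSpace ℂ ι} (hα : Monic D d₀ L a i₀ α)
    (hβ : Monic D d₀ L a i₀ β) : α = β := by
  have hp := H.pos
  obtain ⟨A, R₁, hA⟩ := hα.out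
  obtain ⟨A', R₂, hA'⟩ := hβ.out
  obtain ⟨B, hB⟩ := hα.bdd
  obtain ⟨B', hB'⟩ := hβ.bdd
  obtain ⟨K, hK0, hK⟩ := bound_all (D := D) (v := fun x => α x - β x) (d := d₀ / 4)
    (A := A + A') (B := B + B') (R := max R₁ R₂) (by linarith) (fun x hx => by
      have h1 := hA x ((le_max_left _ _).trans hx)
      have h2 := hA' x ((le_max_right _ _).trans hx)
      have h3 : α x - β x = (α x - eb i₀) - (β x - eb i₀) := by abel
      rw [h3, add_mul]
      exact (norm_sub_le _ _).trans (add_le_add h1 h2))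
    (fun x => (norm_sub_le _ _).trans (add_le_add (hB x) (hB' x)))
  have hreg : Reg0 ∞ 0 (fun x => α x - β x) := by
    rw [reg0_iff_at]
    exact fun x => (hα.reg.at x).sub (hβ.reg.at x)
  have h0 := H.van hE hreg (sec_sub hα.sec hβ.sec) (fun x i => by
    rw [H706.db0_sub hα.reg hβ.reg, hα.hol, hβ.hol, sub_zero]) hK0 hK
  funext x
  have := congrFun h0 x
  exact sub_eq_zero.1 this

/-- products of monic sections -/
theorem Monic.ten {d₀ : ℝ} (hp : 0 < d₀) {L : LB M ι} {L' : LB M ι'} {i₀ : ι} {i₀' : ι'}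
    {a a' : M → Fin 2 → ℂ} {α : M → EuclideanSpace ℂ ι} {α' : M → EuclideanSpace ℂ ι'}
    (h : Monic D d₀ L a i₀ α) (h' : Monic D d₀ L' a' i₀' α') :
    Monic D d₀ (L.tensor L') (fun y => a y + a' y) (i₀, i₀') (fun x => LB.ten (α x) (α' x)) := by
  obtain ⟨B, hB⟩ := h.bdd
  obtain ⟨B', hB'⟩ := h'.bdd
  have hB0 : ∀ x : M, 0 ≤ B := fun x => (norm_nonneg _).trans (hB x)
  have hB0' : ∀ x : M, 0 ≤ B' := fun x => (norm_nonneg _).trans (hB' x)
  refine ⟨?_, h.sec.ten h'.sec, fun x i => ?_, ?_, ?_, ⟨B * B', fun x => ?_⟩⟩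
  · rw [reg0_iff_at]
    intro x
    have := LB.at0_ten (h.reg.at x) (h'.reg.at x)
    rwa [zero_add] at this
  · have h1 := LB.db0_ten (L := L) (L' := L') (a := a) (a' := a') (κ₁ := 0) (κ₂ := 0)
      ((h.reg.at x).of_le one_le_infty) ((h'.reg.at x).of_le one_le_infty) (h.sec x) (h'.sec x) i
    rw [zero_add] at h1
    rw [h1, h.hol, h'.hol]
    simp only [← LB.tenL_apply, map_zero, _root_.zero_apply, add_zero]
  · obtain ⟨A, R, hA⟩ := h.out
    obtain ⟨A', R', hA'⟩ := h'.out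
    refine ⟨A * B' + A', max R R', fun x hx => ?_⟩
    have h1 := hA x ((le_max_left _ _).trans hx)
    have h2 := hA' x ((le_max_right _ _).trans hx)
    have h3 : LB.ten (α x) (α' x) - eb (i₀, i₀') =
        LB.ten (α x - eb i₀) (α' x) + LB.ten (eb i₀) (α' x - eb i₀') := by
      rw [LB.ten_sub_left, LB.ten_sub_right, ten_eb]
      abel
    have he := Real.exp_pos (-(d₀ / 4) * D.f x)
    rw [h3]
    refine (norm_add_le _ _).trans ?_
    rw [LB.norm_ten, LB.norm_ten, norm_eb, one_mul]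
    have h4 : ‖α x - eb i₀‖ * ‖α' x‖ ≤ (A * Real.exp (-(d₀ / 4) * D.f x)) * B' :=
      mul_le_mul h1 (hB' x) (norm_nonneg _) ((norm_nonneg _).trans h1)
    nlinarith
  · obtain ⟨b, A, hA⟩ := h.inn
    obtain ⟨b', A', hA'⟩ := h'.inn
    refine ⟨b * b', A * B' + ‖b‖ * A', fun x hx => ?_⟩
    have h1 := hA x hx
    have h2 := hA' x hx
    have h3 : LB.ten (α x) (α' x) - (b * b') • eb (i₀, i₀') =
        LB.ten (α x - b • eb i₀) (α' x) + LB.ten (b • eb i₀) (α' x - b' • eb i₀') := by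
      rw [LB.ten_sub_left, LB.ten_sub_right, LB.ten_smul_left, LB.ten_smul_left,
        LB.ten_smul_right, ten_eb, smul_smul]
      abel
    have he := Real.exp_pos (d₀ / 2 * D.f x)
    rw [h3]
    refine (norm_add_le _ _).trans ?_
    rw [LB.norm_ten, LB.norm_ten, norm_smul, norm_eb, mul_one]
    have h4 : ‖α x - b • eb i₀‖ * ‖α' x‖ ≤ (A * Real.exp (d₀ / 2 * D.f x)) * B' :=
      mul_le_mul h1 (hB' x) (norm_nonneg _) ((norm_nonneg _).trans h1)
    have h5 : ‖b‖ * ‖α' x - b' • eb i₀'‖ ≤ ‖b‖ * (A' * Real.exp (d₀ / 2 * D.f x)) :=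
      mul_le_mul_of_nonneg_left h2 (norm_nonneg _)
    nlinarith
  · rw [LB.norm_ten]
    exact mul_le_mul (hB x) (hB' x) (norm_nonneg _) (hB0 x)

/-- the trivial bundle -/
theorem monic_triv {d₀ : ℝ} (i₀ : ι) :
    Monic D d₀ (LB.triv i₀ : LB M ι) (fun _ => 0) i₀ (fun _ => eb i₀) := by
  have hc : ∀ x : M, At0 ∞ 0 (fun _ : M => (eb i₀ : EuclideanSpace ℂ ι)) x := fun x => at0_const
  refine ⟨?_, fun x => ?_, fun x i => ?_, ⟨0, 0, fun x _ => ?_⟩, ⟨1, 0, fun x _ => ?_⟩,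
    ⟨1, fun x => ?_⟩⟩
  · rw [reg0_iff_at]
    exact hc
  · change LB.act (Matrix.single i₀ i₀ (1 : ℂ)) (eb i₀) = eb i₀
    have := act_smul_eb (ι := ι) i₀ 1
    rwa [one_smul] at this
  · rw [LB.db0]
    have : dbar0 0 (fun _ : M => (eb i₀ : EuclideanSpace ℂ ι)) x i = 0 := by
      rw [FL.dbar0_const]
      rfl
    rw [this, LB.act_zero, Pi.zero_apply, zero_smul, add_zero]
  · simp
  · simp
  · rw [norm_eb]

/-! ### pairing with the dual -/

theorem exists_f_ge' (D : XTData M) [Nonempty M] (t : ℝ) : ∃ x, t ≤ D.f x := by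
  obtain ⟨x⟩ := ‹Nonempty M›
  refine ⟨D.sh ⌈t - D.f x⌉ x, ?_⟩
  rw [D.f_sh]
  have := Int.le_ceil (t - D.f x)
  linarith

theorem bp_eb (i₀ : ι) (v : EuclideanSpace ℂ ι) : LB.bp (eb i₀) v = v i₀ := by
  simp only [LB.bp, EuclideanSpace.single_apply]
  rw [Finset.sum_eq_single i₀]
  · simp
  · intro j _ hj
    simp [hj]
  · simp

theorem Monic.pair {d₀ : ℝ} (H : XtL D d₀) [Nonempty M] {L : LB M ι} {i₀ : ι}
    {a : M → Fin 2 → ℂ} {α β : M → EuclideanSpace ℂ ι} (h : Monic D d₀ L a i₀ α)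
    (h' : Monic D d₀ L.dual (fun x i => -a x i) i₀ β) : ∀ x, LB.bp (α x) (β x) = 1 := by
  have hp := H.pos
  have hreg : Reg0 ∞ 0 (fun x => LB.bp (α x) (β x)) := by
    rw [reg0_iff_at]
    intro x
    have := LB.at0_bp (h.reg.at x) (h'.reg.at x)
    rwa [zero_add] at this
  have hhol : ∀ x i, dbar0 0 (fun x => LB.bp (α x) (β x)) x i = 0 := by
    intro x i
    have h1 := LB.dbar0_bp (L := L) (a := a) (κ₁ := 0) (κ₂ := 0)
      ((h.reg.at x).of_le one_le_infty) ((h'.reg.at x).of_le one_le_infty) (h.sec x) (h'.sec x) i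
    rw [zero_add] at h1
    have h2 : L.dual.db0 (-a) 0 β x i = 0 := h'.hol x i
    rw [h1, h.hol, h2, LB.bp_zero_left, LB.bp_zero_right, add_zero]
  obtain ⟨B, hB⟩ := h.bdd
  obtain ⟨B', hB'⟩ := h'.bdd
  obtain ⟨b, hb⟩ := (H.root d₀ hp le_rfl).const _ hreg hhol ⟨|B| * |B'|, fun x => by
    refine (LB.norm_bp_le _ _).trans ?_
    have h1 : ‖α x‖ * ‖β x‖ ≤ |B| * |B'| := mul_le_mul ((hB x).trans (le_abs_self _))
      ((hB' x).trans (le_abs_self _)) (norm_nonneg _) (abs_nonneg _)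
    have h2 : 1 ≤ Real.exp (d₀ * |D.f x|) := Real.one_le_exp (by positivity)
    have h3 : 0 ≤ |B| * |B'| := by positivity
    nlinarith⟩
  obtain ⟨A, R, hA⟩ := h.out
  obtain ⟨A', R', hA'⟩ := h'.out
  have hle : ∀ x, max R R' ≤ D.f x →
      ‖b - 1‖ ≤ (|A| * |B'| + |A'|) * Real.exp (-(d₀ / 4) * D.f x) := by
    intro x hx
    have h1 := hA x ((le_max_left _ _).trans hx)
    have h2 := hA' x ((le_max_right _ _).trans hx)
    have he := Real.exp_pos (-(d₀ / 4) * D.f x)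
    have h3 : LB.bp (α x) (β x) - 1 =
        LB.bp (α x - eb i₀) (β x) + LB.bp (eb i₀) (β x - eb i₀) := by
      rw [LB.bp_sub_left, LB.bp_sub_right, bp_eb i₀ (eb i₀), eb_apply]
      ring
    rw [← hb x, h3]
    refine (norm_add_le _ _).trans ?_
    have h4 : ‖LB.bp (α x - eb i₀) (β x)‖ ≤
        (|A| * Real.exp (-(d₀ / 4) * D.f x)) * |B'| := by
      refine (LB.norm_bp_le _ _).trans (mul_le_mul (h1.trans ?_) ((hB' x).trans (le_abs_self _))
        (norm_nonneg _) (by positivity))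
      exact mul_le_mul_of_nonneg_right (le_abs_self _) he.le
    have h5 : ‖LB.bp (eb i₀) (β x - eb i₀)‖ ≤ |A'| * Real.exp (-(d₀ / 4) * D.f x) := by
      refine (LB.norm_bp_le _ _).trans ?_
      rw [norm_eb, one_mul]
      exact h2.trans (mul_le_mul_of_nonneg_right (le_abs_self _) he.le)
    linarith
  have hlim : ‖b - 1‖ ≤ 0 := by
    refine ge_of_tendsto (x := atTop) (f := fun n : ℕ =>
      (|A| * |B'| + |A'|) * Real.exp (-(d₀ / 4) * n)) ?_ ?_
    · have h1 : Tendsto (fun n : ℕ => Real.exp (-(d₀ / 4) * n)) atTop (𝓝 0) := by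
        apply Real.tendsto_exp_atBot.comp
        have : Tendsto (fun n : ℕ => (n : ℝ)) atTop atTop := tendsto_natCast_atTop_atTop
        exact this.const_mul_atTop_of_neg (by linarith)
      simpa using h1.const_mul (|A| * |B'| + |A'|)
    · filter_upwards [eventually_ge_atTop ⌈max R R'⌉₊] with n hn
      obtain ⟨x, hx⟩ := exists_f_ge' D (max (max R R') n)
      have h1 := hle x ((le_max_left _ _).trans hx)
      refine h1.trans (mul_le_mul_of_nonneg_left (Real.exp_le_exp.2 ?_) (by positivity))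
      have h2 : (n : ℝ) ≤ D.f x := (le_max_right _ _).trans hx
      nlinarith
  have hb1 : b = 1 := sub_eq_zero.1 (norm_le_zero_iff.1 hlim)
  intro x
  rw [hb x, hb1]

end Vale.Agent.P267.H206
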