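import Vale.Agent.P267.H206.Fa2

/-!
# P267, GX-FACT (helper206), part 3: numerically equivalent bundles are isomorphic, and their monic
sections correspond to each other
-/

set_option linter.unusedVariables false
set_option linter.unusedSectionVars false

open scoped Manifold ContDiff ComplexConjugate Matrix ComplexOrder Topology
open MeasureTheory Set Filter

noncomputable section

namespace Vale.Agent.P267.H206

open FL XT H706

variable {M : Type} [TopologicalSpace M] [ChartedSpace C2 M] [IsManifold 𝓘(ℂ, C2) ω M]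
  {D : XTData M}
variable {ι : Type} [Fintype ι] [DecidableEq ι] {ι' : Type} [Fintype ι'] [DecidableEq ι']

/-! ### a bundle with `χ = 0` for itself and its dual is trivial -/

/-- **TRIV.** -/
theorem XtL.triv {d₀ : ℝ} (H : XtL D d₀) [Nonempty M] {L : LB M ι} {i₀ : ι} {a : M → Fin 2 → ℂ}
    {R : ℝ} (hE : D.EndTriv L i₀ a R d₀) (h1 : D.H1Leaf L i₀ R 0)
    (h2 : D.H1Leaf L.dual i₀ R 0) :
    ∃ ψ, Monic D d₀ L a i₀ ψ ∧ (∀ x, ψ x ≠ 0) ∧ ∃ c : ℝ, 0 < c ∧ ∀ x, c ≤ ‖ψ x‖ := by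
  obtain ⟨ψ, hψ⟩ := H.exists_monic hE h1
  obtain ⟨φ, hφ⟩ := H.exists_monic hE.dual h2
  have hp := hψ.pair H hφ
  obtain ⟨B, hB⟩ := hφ.bdd
  have hn : ∀ x, 1 ≤ ‖ψ x‖ * ‖φ x‖ := fun x => by
    have := LB.norm_bp_le (ψ x) (φ x)
    rwa [hp x, norm_one] at this
  have hB' : ∀ x, 1 ≤ ‖ψ x‖ * (|B| + 1) := fun x => by
    refine (hn x).trans (mul_le_mul_of_nonneg_left ?_ (norm_nonneg _))
    linarith [hB x, le_abs_self B]
  have hBp : 0 < |B| + 1 := by positivity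
  refine ⟨ψ, hψ, fun x h0 => ?_, (|B| + 1)⁻¹, inv_pos.2 hBp, fun x => ?_⟩
  · have := hn x
    rw [h0, norm_zero, zero_mul] at this
    linarith
  · rw [inv_le_iff_one_le_mul₀ hBp]
    exact hB' x

theorem exists_fibre (L : LB M ι) (x : M) :
    ∃ e : EuclideanSpace ℂ ι, LB.act (L.P x) e = e ∧ e ≠ 0 := by
  obtain ⟨v, hv, h1⟩ := L.exists_vec x
  refine ⟨WithLp.toLp 2 v, ?_, fun h0 => ?_⟩
  · ext i
    rw [LB.act_apply]
    have : ∀ j, L.P x i j * v j = v i * (v j * conj (v j)) := fun j => by rw [hv]; ring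
    change ∑ j, L.P x i j * v j = v i
    rw [Finset.sum_congr rfl fun j _ => this j, ← Finset.mul_sum, h1, mul_one]
  · have : ∀ i, v i = 0 := fun i => congrArg (fun z : EuclideanSpace ℂ ι => z i) h0
    simp [this] at h1

/-! ### contraction -/

/-- contraction `E × (E^* ⊗ E') → E'` -/
def ctL : EuclideanSpace ℂ ι →L[ℂ] EuclideanSpace ℂ (ι × ι') →L[ℂ] EuclideanSpace ℂ ι' :=
  LinearMap.toContinuousLinearMap
    ((LinearMap.toContinuousLinearMap (𝕜 := ℂ) (E := EuclideanSpace ℂ (ι × ι'))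
        (F' := EuclideanSpace ℂ ι')).toLinearMap ∘ₗ
      (LinearMap.mk₂ ℂ (fun (w : EuclideanSpace ℂ ι) (u : EuclideanSpace ℂ (ι × ι')) =>
        (WithLp.toLp 2 fun j => ∑ i, w i * u (i, j) : EuclideanSpace ℂ ι'))
        (fun w w' u => by ext j; simp [add_mul, Finset.sum_add_distrib])
        (fun c w u => by
          ext j
          simp only [PiLp.smul_apply, smul_eq_mul, Finset.mul_sum]
          exact Finset.sum_congr rfl fun i _ => by ring)
        (fun w u u' => by ext j; simp [mul_add, Finset.sum_add_distrib])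
        (fun c w u => by
          ext j
          simp only [PiLp.smul_apply, smul_eq_mul, Finset.mul_sum]
          exact Finset.sum_congr rfl fun i _ => by ring)))

theorem ctL_apply (w : EuclideanSpace ℂ ι) (u : EuclideanSpace ℂ (ι × ι')) (j : ι') :
    ctL w u j = ∑ i, w i * u (i, j) := rfl

theorem ctL_ten (w v : EuclideanSpace ℂ ι) (v' : EuclideanSpace ℂ ι') :
    ctL w (LB.ten v v') = LB.bp w v • v' := by
  ext j
  rw [ctL_apply, PiLp.smul_apply, smul_eq_mul, LB.bp, Finset.sum_mul]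
  exact Finset.sum_congr rfl fun i _ => by rw [LB.ten_apply]; ring

theorem ctL_act (A : Matrix ι ι ℂ) (B : Matrix ι' ι' ℂ) (w : EuclideanSpace ℂ ι)
    (u : EuclideanSpace ℂ (ι × ι')) :
    ctL w (LB.act (Matrix.kroneckerMap (· * ·) Aᵀ B) u) = LB.act B (ctL (LB.act A w) u) := by
  ext j
  simp only [ctL_apply, LB.act_apply, Matrix.kroneckerMap_apply, Matrix.transpose_apply,
    Fintype.sum_prod_type, Finset.mul_sum, Finset.sum_mul]
  -- Σ_i Σ_p Σ_q w i A p i B j q u(p,q)  =  Σ_q Σ_p Σ_i B j q A p i w i u(p,q)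
  rw [Finset.sum_comm]
  conv_lhs => enter [2, p]; rw [Finset.sum_comm]
  rw [Finset.sum_comm]
  exact Finset.sum_congr rfl fun q _ => Finset.sum_congr rfl fun p _ =>
    Finset.sum_congr rfl fun i _ => by ring

theorem norm_ctL_le (w : EuclideanSpace ℂ ι) (u : EuclideanSpace ℂ (ι × ι')) :
    ‖ctL w u‖ ≤ ‖w‖ * ‖u‖ := by
  have h0 : (0 : ℝ) ≤ ‖w‖ * ‖u‖ := by positivity
  rw [← abs_of_nonneg h0, ← abs_of_nonneg (norm_nonneg (ctL w u)), ← sq_le_sq,
    EuclideanSpace.norm_sq_eq, mul_pow, EuclideanSpace.norm_sq_eq, EuclideanSpace.norm_sq_eq,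
    Fintype.sum_prod_type]
  conv_rhs => rw [Finset.sum_comm]
  rw [Finset.mul_sum]
  refine Finset.sum_le_sum fun j _ => ?_
  have h1 : ‖ctL w u j‖ ≤ ∑ i, ‖w i‖ * ‖u (i, j)‖ := by
    rw [ctL_apply]
    refine (norm_sum_le _ _).trans (Finset.sum_le_sum fun i _ => ?_)
    rw [norm_mul]
  calc ‖ctL w u j‖ ^ 2 ≤ (∑ i, ‖w i‖ * ‖u (i, j)‖) ^ 2 :=
        pow_le_pow_left₀ (norm_nonneg _) h1 2
    _ ≤ _ := Finset.sum_mul_sq_le_sq_mul_sq _ _ _

theorem norm_ctL_eq {L : LB M ι} {L' : LB M ι'} {x : M} {w : EuclideanSpace ℂ ι}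
    {u : EuclideanSpace ℂ (ι × ι')} (hw : LB.act (L.P x) w = w)
    (hu : LB.act ((L.dual.tensor L').P x) u = u) : ‖ctL w u‖ = ‖w‖ * ‖u‖ := by
  by_cases hw0 : w = 0
  · rw [hw0]; simp
  -- the dual vector of `w`
  set v : EuclideanSpace ℂ ι := WithLp.toLp 2 fun i => conj (w i) with hv
  have hvn : ‖v‖ = ‖w‖ := by
    rw [EuclideanSpace.norm_eq, EuclideanSpace.norm_eq]
    simp [hv]
  have hwn : ‖w‖ ≠ 0 := norm_ne_zero_iff.2 hw0
  have hv0 : v ≠ 0 := by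
    rw [← norm_ne_zero_iff, hvn]; exact hwn
  have hvP : LB.act (L.dual.P x) v = v := by
    ext i
    have h1 := congrArg (fun z : EuclideanSpace ℂ ι => conj (z i)) hw
    simp only [LB.act_apply, map_sum, map_mul] at h1
    rw [LB.act_apply]
    change ∑ j, (L.P x) j i * conj (w j) = conj (w i)
    rw [← h1]
    refine Finset.sum_congr rfl fun j _ => ?_
    congr 1
    have := congrFun (congrFun (L.herm x) j) i
    rw [Matrix.conjTranspose_apply] at this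
    rw [← this]
    rfl
  have hbp : LB.bp w v = ((‖w‖ ^ 2 : ℝ) : ℂ) := by
    rw [EuclideanSpace.norm_sq_eq]
    simp only [LB.bp]
    push_cast
    refine Finset.sum_congr rfl fun i _ => ?_
    change w i * conj (w i) = _
    rw [Complex.mul_conj, Complex.normSq_eq_norm_sq]
    push_cast
    rfl
  by_cases hu0 : u = 0
  · rw [hu0]; simp
  obtain ⟨e, he, he0⟩ := exists_fibre L' x
  obtain ⟨c, hc⟩ := (L.dual.tensor L').fibre_smul x
    (show LB.act ((L.dual.tensor L').P x) (LB.ten v e) = LB.ten v e by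
      rw [LB.act_tensor_P, hvP, he]) hu (LB.ten_ne_zero hv0 he0)
  rw [hc, map_smul, ctL_ten, hbp, norm_smul, norm_smul, norm_smul, LB.norm_ten, hvn]
  rw [Complex.norm_real, Real.norm_of_nonneg (by positivity)]
  ring

/-- on the fibre of `L^* ⊗ L'`: the contraction is `L'`-valued and depends only on the
`L`-component -/
theorem ctL_fibre {L : LB M ι} {L' : LB M ι'} {x : M} {u : EuclideanSpace ℂ (ι × ι')}
    (hu : LB.act ((L.dual.tensor L').P x) u = u) (w : EuclideanSpace ℂ ι) :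
    LB.act (L'.P x) (ctL w u) = ctL w u ∧ ctL (LB.act (L.P x) w) u = ctL w u := by
  have key : ∀ w : EuclideanSpace ℂ ι, ctL w u = LB.act (L'.P x) (ctL (LB.act (L.P x) w) u) := by
    intro w
    conv_lhs => rw [← hu]
    exact ctL_act (L.P x) (L'.P x) w u
  refine ⟨?_, ?_⟩
  · rw [key w, L'.act_act_P]
  · rw [key (LB.act (L.P x) w), L.act_act_P, ← key w]

theorem at0_ctL {n : WithTop ℕ∞} {κ₁ κ₂ : ℤ} {s : M → EuclideanSpace ℂ ι}
    {u : M → EuclideanSpace ℂ (ι × ι')} {x : M} (hs : At0 n κ₁ s x) (hu : At0 n κ₂ u x) :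
    At0 n (κ₁ + κ₂) (fun y => ctL (s y) (u y)) x :=
  At0.bilin (V := EuclideanSpace ℂ ι) (W := EuclideanSpace ℂ (ι × ι'))
      (Z := EuclideanSpace ℂ ι') (B := ctL) hs hu

/-- Leibniz rule for the contraction -/
theorem db0_ctL {L : LB M ι} {L' : LB M ι'} {a a' : M → Fin 2 → ℂ} {κ₁ κ₂ : ℤ}
    {s : M → EuclideanSpace ℂ ι} {u : M → EuclideanSpace ℂ (ι × ι')} {x : M}
    (hs : At0 1 κ₁ s x) (hu : At0 1 κ₂ u x) (hsx : LB.act (L.P x) (s x) = s x)
    (hux : LB.act ((L.dual.tensor L').P x) (u x) = u x) (i : Fin 2) :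
    L'.db0 a' (κ₁ + κ₂) (fun y => ctL (s y) (u y)) x i =
      ctL (L.db0 a κ₁ s x i) (u x) +
        ctL (s x) ((L.dual.tensor L').db0 (fun y j => -a y j + a' y j) κ₂ u x i) := by
  have h1 : dbar0 (κ₁ + κ₂) (fun y => ctL (s y) (u y)) x i =
      ctL (dbar0 κ₁ s x i) (u x) + ctL (s x) (dbar0 κ₂ u x i) :=
    dbar0_bilin (V := EuclideanSpace ℂ ι) (W := EuclideanSpace ℂ (ι × ι'))
      (Z := EuclideanSpace ℂ ι') (B := ctL) hs hu i
  have h2 : LB.act (L'.P x) (ctL (dbar0 κ₁ s x i) (u x)) =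
      ctL (LB.act (L.P x) (dbar0 κ₁ s x i)) (u x) := by
    rw [(ctL_fibre hux _).1, (ctL_fibre hux _).2]
  have h3 : LB.act (L'.P x) (ctL (s x) (dbar0 κ₂ u x i)) =
      ctL (s x) (LB.act ((L.dual.tensor L').P x) (dbar0 κ₂ u x i)) := by
    have := ctL_act (L.P x) (L'.P x) (s x) (dbar0 κ₂ u x i)
    rw [hsx] at this
    exact this.symm
  rw [LB.db0, h1, LB.act_add, h2, h3, LB.db0, LB.db0]
  simp only [map_add, map_smul, _root_.add_apply, _root_.smul_apply]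
  module

theorem ctL_eb (i₀ : ι) (i₀' : ι') :
    ctL (eb i₀ : EuclideanSpace ℂ ι) (eb (i₀, i₀')) = (eb i₀' : EuclideanSpace ℂ ι') := by
  rw [← ten_eb, ctL_ten, bp_eb, eb_apply, one_smul]

/-- contraction of monic sections -/
theorem Monic.ct {d₀ : ℝ} (hp : 0 < d₀) {L : LB M ι} {L' : LB M ι'} {i₀ : ι} {i₀' : ι'}
    {a a' : M → Fin 2 → ℂ} {α : M → EuclideanSpace ℂ ι} {ψ : M → EuclideanSpace ℂ (ι × ι')}
    (h : Monic D d₀ L a i₀ α)
    (h' : Monic D d₀ (L.dual.tensor L') (fun y j => -a y j + a' y j) (i₀, i₀') ψ) :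
    Monic D d₀ L' a' i₀' (fun x => ctL (α x) (ψ x)) := by
  obtain ⟨B, hB⟩ := h.bdd
  obtain ⟨B', hB'⟩ := h'.bdd
  have hB0 : ∀ x : M, 0 ≤ B := fun x => (norm_nonneg _).trans (hB x)
  refine ⟨?_, fun x => (ctL_fibre (h'.sec x) _).1, fun x i => ?_, ?_, ?_,
    ⟨B * B', fun x => (norm_ctL_le _ _).trans
      (mul_le_mul (hB x) (hB' x) (norm_nonneg _) (hB0 x))⟩⟩
  · rw [reg0_iff_at]
    intro x
    have := at0_ctL (h.reg.at x) (h'.reg.at x)
    rwa [zero_add] at this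
  · have h1 := db0_ctL (L := L) (L' := L') (a := a) (a' := a') (κ₁ := 0) (κ₂ := 0)
      ((h.reg.at x).of_le one_le_infty) ((h'.reg.at x).of_le one_le_infty) (h.sec x) (h'.sec x) i
    rw [zero_add] at h1
    rw [h1, h.hol, h'.hol]
    simp only [map_zero, _root_.zero_apply, add_zero]
  · obtain ⟨A, R, hA⟩ := h.out
    obtain ⟨A', R', hA'⟩ := h'.out
    refine ⟨A * B' + A', max R R', fun x hx => ?_⟩
    have h1 := hA x ((le_max_left _ _).trans hx)
    have h2 := hA' x ((le_max_right _ _).trans hx)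
    have h3 : ctL (α x) (ψ x) - eb i₀' =
        ctL (α x - eb i₀) (ψ x) + ctL (eb i₀) (ψ x - eb (i₀, i₀')) := by
      rw [map_sub, map_sub, _root_.sub_apply, ctL_eb]
      abel
    have he := Real.exp_pos (-(d₀ / 4) * D.f x)
    rw [h3]
    refine (norm_add_le _ _).trans ((add_le_add (norm_ctL_le _ _) (norm_ctL_le _ _)).trans ?_)
    rw [norm_eb, one_mul]
    have h4 : ‖α x - eb i₀‖ * ‖ψ x‖ ≤ (A * Real.exp (-(d₀ / 4) * D.f x)) * B' :=
      mul_le_mul h1 (hB' x) (norm_nonneg _) ((norm_nonneg _).trans h1)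
    nlinarith
  · obtain ⟨b, A, hA⟩ := h.inn
    obtain ⟨b', A', hA'⟩ := h'.inn
    refine ⟨b * b', A * B' + ‖b‖ * A', fun x hx => ?_⟩
    have h1 := hA x hx
    have h2 := hA' x hx
    have h3 : ctL (α x) (ψ x) - (b * b') • eb i₀' =
        ctL (α x - b • eb i₀) (ψ x) + ctL (b • eb i₀) (ψ x - b' • eb (i₀, i₀')) := by
      simp only [map_sub, map_smul, _root_.sub_apply, _root_.smul_apply, ctL_eb]
      module
    have he := Real.exp_pos (d₀ / 2 * D.f x)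
    rw [h3]
    refine (norm_add_le _ _).trans ((add_le_add (norm_ctL_le _ _) (norm_ctL_le _ _)).trans ?_)
    rw [norm_smul, norm_eb, mul_one]
    have h4 : ‖α x - b • eb i₀‖ * ‖ψ x‖ ≤ (A * Real.exp (d₀ / 2 * D.f x)) * B' :=
      mul_le_mul h1 (hB' x) (norm_nonneg _) ((norm_nonneg _).trans h1)
    have h5 : ‖b‖ * ‖ψ x - b' • eb (i₀, i₀')‖ ≤ ‖b‖ * (A' * Real.exp (d₀ / 2 * D.f x)) :=
      mul_le_mul_of_nonneg_left h2 (norm_nonneg _)
    nlinarith

/-- **FACT, abstract form.** If `χ = 0` for `L₁^* ⊗ L₂` and its dual (numerically equivalent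
bundles), then the monic sections correspond to each other under a holomorphic isomorphism `ψ`,
bounded above and below. -/
theorem XtL.fact {d₀ : ℝ} (H : XtL D d₀) [Nonempty M] {L₁ : LB M ι} {L₂ : LB M ι'} {i₁ : ι}
    {i₂ : ι'} {a₁ a₂ : M → Fin 2 → ℂ} {R : ℝ} (hE₁ : D.EndTriv L₁ i₁ a₁ R d₀)
    (hE₂ : D.EndTriv L₂ i₂ a₂ R d₀) (h1 : D.H1Leaf (L₁.dual.tensor L₂) (i₁, i₂) R 0)
    (h2 : D.H1Leaf (L₁.dual.tensor L₂).dual (i₁, i₂) R 0) {α₁ : M → EuclideanSpace ℂ ι}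
    {α₂ : M → EuclideanSpace ℂ ι'} (hα₁ : Monic D d₀ L₁ a₁ i₁ α₁)
    (hα₂ : Monic D d₀ L₂ a₂ i₂ α₂) :
    ∃ ψ : M → EuclideanSpace ℂ (ι × ι'),
      Monic D d₀ (L₁.dual.tensor L₂) (fun y j => -a₁ y j + a₂ y j) (i₁, i₂) ψ ∧
      (∀ x, ψ x ≠ 0) ∧ (∀ x, ctL (α₁ x) (ψ x) = α₂ x) ∧ (∀ x, ‖α₂ x‖ = ‖α₁ x‖ * ‖ψ x‖) ∧
      ∃ c C : ℝ, 0 < c ∧ ∀ x, c ≤ ‖ψ x‖ ∧ ‖ψ x‖ ≤ C := by
  obtain ⟨ψ, hψ, hψ0, c, hc, hc'⟩ := H.triv (endTriv_tensor hE₁.dual hE₂) h1 h2
  have hct := Monic.unique H hE₂ (Monic.ct H.pos hα₁ hψ) hα₂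
  have hct' : ∀ x, ctL (α₁ x) (ψ x) = α₂ x := fun x => congrFun hct x
  obtain ⟨C, hC⟩ := hψ.bdd
  refine ⟨ψ, hψ, hψ0, hct', fun x => ?_, c, C, hc, fun x => ⟨hc' x, hC x⟩⟩
  rw [← hct' x]
  exact norm_ctL_eq (hα₁.sec x) (hψ.sec x)

end Vale.Agent.P267.H206
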