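import Vale.Agent.P267.H206.Fa3
import Vale.Agent.P267.H877.Trans

/-!
# P267, GX-FACT (helper206), part 4: translates, rates, sections which are exact at the ends
-/

set_option linter.unusedVariables false
set_option linter.unusedSectionVars false

open scoped Manifold ContDiff ComplexConjugate Matrix ComplexOrder Topology
open MeasureTheory Set Filter

noncomputable section

namespace Vale.Agent.P267.H206

open FL XT H706

variable {M : Type} [TopologicalSpace M] [ChartedSpace C2 M] [IsManifold 𝓘(ℂ, C2) ω M]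
  {D : XTData M}
variable {ι : Type} [Fintype ι] [DecidableEq ι]

theorem endTriv_rate {L : LB M ι} {i₀ : ι} {a : M → Fin 2 → ℂ} {R N N' : ℝ}
    (h : D.EndTriv L i₀ a R N) (hN : N' ≤ N) : D.EndTriv L i₀ a R N' := by
  have key : ∀ x : M, Real.exp (-(N * |D.f x|)) ≤ Real.exp (-(N' * |D.f x|)) := fun x =>
    Real.exp_le_exp.2 (by nlinarith [abs_nonneg (D.f x)])
  refine ⟨h.hol, h.ends, ?_, ?_⟩
  · obtain ⟨C, hC⟩ := h.decay
    refine ⟨|C|, fun x => (hC x).trans ?_⟩
    exact mul_le_mul (le_abs_self C) (key x) (Real.exp_pos _).le (abs_nonneg C)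
  · obtain ⟨C, hC⟩ := h.decay'
    refine ⟨|C|, fun x => (hC x).trans ?_⟩
    exact mul_le_mul (le_abs_self C) (key x) (Real.exp_pos _).le (abs_nonneg C)

/-- translate of a bundle which is trivial at the ends -/
theorem endTriv_shift {L : LB M ι} {i₀ : ι} {a : M → Fin 2 → ℂ} {R N : ℝ} (hN : 0 ≤ N)
    (h : D.EndTriv L i₀ a R N) (k : ℤ) :
    D.EndTriv (D.shL k L) i₀ (fun x => a (D.sh k x)) (R + |(k : ℝ)|) N := by
  have key : ∀ x : M, Real.exp (-(N * |D.f (D.sh k x)|)) ≤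
      Real.exp (N * |(k : ℝ)|) * Real.exp (-(N * |D.f x|)) := by
    intro x
    rw [← Real.exp_add]
    apply Real.exp_le_exp.2
    rw [D.f_sh]
    have := abs_sub_abs_le_abs_sub (D.f x) (-(k : ℝ))
    rw [sub_neg_eq_add, abs_neg] at this
    nlinarith
  have hg := D.chartMap_sh k
  refine ⟨hg.lb_isHol h.hol, fun x hx => ?_, ?_, ?_⟩
  · rw [D.shL_P]
    apply h.ends
    rw [D.f_sh]
    have := abs_sub_abs_le_abs_sub (D.f x) (-(k : ℝ))
    rw [sub_neg_eq_add, abs_neg] at this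
    linarith
  · obtain ⟨C, hC⟩ := h.decay
    refine ⟨|C| * Real.exp (N * |(k : ℝ)|), fun x => ?_⟩
    rw [D.n1_comp_sh, mul_assoc]
    exact (hC _).trans (mul_le_mul (le_abs_self C) (key x) (Real.exp_pos _).le (abs_nonneg C))
  · obtain ⟨C, hC⟩ := h.decay'
    refine ⟨|C| * Real.exp (N * |(k : ℝ)|), fun x => ?_⟩
    have h1 : trh D.h (del1 fun y => a (D.sh k y)) x = trh D.h (del1 a) (D.sh k x) := by
      rw [trh, trh, hg.del1_comp, D.h_sh]
    rw [h1, mul_assoc]
    exact (hC _).trans (mul_le_mul (le_abs_self C) (key x) (Real.exp_pos _).le (abs_nonneg C))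

/-- translate of a monic section -/
theorem Monic.shift {d₀ : ℝ} (hp : 0 < d₀) {L : LB M ι} {i₀ : ι} {a : M → Fin 2 → ℂ}
    {α : M → EuclideanSpace ℂ ι} (h : Monic D d₀ L a i₀ α) (k : ℤ) :
    Monic D d₀ (D.shL k L) (fun x => a (D.sh k x)) i₀ (fun x => α (D.sh k x)) := by
  have hg := D.chartMap_sh k
  obtain ⟨B, hB⟩ := h.bdd
  refine ⟨hg.reg0_comp h.reg, hg.lb_sec h.sec, fun x i => ?_, ?_, ?_, ⟨B, fun x => hB _⟩⟩
  · rw [XTData.shL, hg.lb_db0]
    exact h.hol _ i
  · obtain ⟨A, R, hA⟩ := h.out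
    refine ⟨A * Real.exp (-(d₀ / 4) * k), R - k, fun x hx => ?_⟩
    have h1 := hA (D.sh k x) (by rw [D.f_sh]; linarith)
    rw [D.f_sh, mul_add, Real.exp_add] at h1
    rw [mul_assoc, mul_comm (Real.exp (-(d₀ / 4) * k))]
    exact h1
  · obtain ⟨b, A, hA⟩ := h.inn
    refine ⟨b, (|A| + (|B| + ‖b‖)) * Real.exp (d₀ / 2 * |(k : ℝ)|), fun x hx => ?_⟩
    have hk := le_abs_self (k : ℝ)
    have hk' := neg_abs_le (k : ℝ)
    rcases le_total (D.f (D.sh k x)) 0 with h1 | h1
    · have h2 := hA _ h1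
      rw [D.f_sh] at h2
      refine h2.trans ?_
      have h3 : Real.exp (d₀ / 2 * (D.f x + k)) ≤
          Real.exp (d₀ / 2 * |(k : ℝ)|) * Real.exp (d₀ / 2 * D.f x) := by
        rw [← Real.exp_add]
        apply Real.exp_le_exp.2
        nlinarith
      have h4 : A * Real.exp (d₀ / 2 * (D.f x + k)) ≤
          |A| * (Real.exp (d₀ / 2 * |(k : ℝ)|) * Real.exp (d₀ / 2 * D.f x)) :=
        mul_le_mul (le_abs_self A) h3 (Real.exp_pos _).le (abs_nonneg A)
      have h5 : 0 ≤ (|B| + ‖b‖) * (Real.exp (d₀ / 2 * |(k : ℝ)|) * Real.exp (d₀ / 2 * D.f x)) := by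
        positivity
      calc _ ≤ |A| * (Real.exp (d₀ / 2 * |(k : ℝ)|) * Real.exp (d₀ / 2 * D.f x)) := h4
        _ ≤ _ := by rw [mul_assoc, add_mul]; linarith
    · have h2 : ‖α (D.sh k x) - b • eb i₀‖ ≤ |B| + ‖b‖ := by
        refine (norm_sub_le _ _).trans (add_le_add ((hB _).trans (le_abs_self B)) ?_)
        rw [norm_smul, norm_eb, mul_one]
      have h3 : 1 ≤ Real.exp (d₀ / 2 * |(k : ℝ)|) * Real.exp (d₀ / 2 * D.f x) := by
        rw [← Real.exp_add]
        apply Real.one_le_exp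
        rw [D.f_sh] at h1
        nlinarith
      have h4 : 0 ≤ |B| + ‖b‖ := by positivity
      have h5 : 0 ≤ |A| * (Real.exp (d₀ / 2 * |(k : ℝ)|) * Real.exp (d₀ / 2 * D.f x)) := by
        positivity
      rw [mul_assoc, add_mul]
      nlinarith

/-- a holomorphic section which is the basis vector near both ends is monic -/
theorem monic_of_exact {d₀ : ℝ} (hp : 0 < d₀) {L : LB M ι} {i₀ : ι} {a : M → Fin 2 → ℂ}
    {s : M → EuclideanSpace ℂ ι} (hreg : Reg0 ∞ 0 s) (hsec : L.Sec s)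
    (hhol : ∀ x i, L.db0 a 0 s x i = 0) {R : ℝ} (hR : ∀ x, R ≤ |D.f x| → s x = eb i₀) :
    Monic D d₀ L a i₀ s := by
  have hcont : Continuous (fun x => ‖s x‖) := hreg.continuous.norm
  obtain ⟨C, hC, hC'⟩ := bdd_on D hcont (-|R|) |R|
  have hb : ∀ x, ‖s x‖ ≤ C + 1 := by
    intro x
    rcases le_total |R| |D.f x| with h | h
    · rw [hR x ((le_abs_self R).trans h), norm_eb]; linarith
    · have := abs_le.1 h
      linarith [hC' x this.1 this.2]
  refine ⟨hreg, hsec, hhol, ⟨0, |R|, fun x hx => ?_⟩,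
    ⟨1, (C + 2) * Real.exp (d₀ / 2 * |R|), fun x hx => ?_⟩, ⟨C + 1, hb⟩⟩
  · rw [hR x ((le_abs_self R).trans (hx.trans (le_abs_self _))), sub_self, norm_zero, zero_mul]
  · rw [one_smul]
    rcases le_total |R| |D.f x| with h | h
    · rw [hR x ((le_abs_self R).trans h), sub_self, norm_zero]
      positivity
    · have h1 : ‖s x - eb i₀‖ ≤ C + 2 := by
        refine (norm_sub_le _ _).trans ?_
        rw [norm_eb]
        linarith [hb x]
      have h2 : 1 ≤ Real.exp (d₀ / 2 * |R|) * Real.exp (d₀ / 2 * D.f x) := by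
        rw [← Real.exp_add]
        apply Real.one_le_exp
        rw [abs_of_nonpos hx] at h
        nlinarith
      rw [mul_assoc]
      nlinarith

end Vale.Agent.P267.H206
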