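import Vale.Agent.P267.H75.HeadEx
import Vale.Agent.P267.H283.Pars
import Vale.Agent.P267.H283.Head
import Vale.Agent.P267.H823.PL10

/-!
# P267, HEAD (helper206): the class of an embedded projective line

`cls` : the class of an embedded projective line on the infinite cyclic cover is
`e_h - ∑_{j ∈ I} e_j` with `h ∉ I`.
-/

set_option linter.unusedVariables false
set_option linter.unusedSectionVars false

open scoped Manifold ContDiff ComplexConjugate Matrix ComplexOrder Topology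
open MeasureTheory Set Filter

noncomputable section

namespace Vale.Agent.P267.H206

open FL XT H706 H158 BlockC LineX RR H338 H757 H332 H75

variable {X : Type} [TopologicalSpace X] [T2Space X] [CompactSpace X] [ChartedSpace C2 X]
  [IsManifold 𝓘(ℂ, C2) ω X] {n : ℕ} {O : BlockOut X n} {H : CovFacts O.B.hh}
  (S : Basis H O.E O.i₀ O.R)

include S in
/-- the coordinates are integers -/
theorem exists_int (A : MB O) : ∃ x : Fin n × ℤ → ℤ, (Function.support x).Finite ∧
    (∀ b, isec A.L.L (O.bL b) = -(x b : ℂ)) ∧ ∀ b, A.x S b = x b := by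
  obtain ⟨x, h1, h2⟩ := H283.exists_coef H (fun m _ => S.form m) (fun m _ => O.surf m)
    ⟨O.triv, O.dot, O.can⟩ (Eb := fun b => O.bL b) (fun b => MB.isShift_bL b) A.endB
  refine ⟨x, h1, h2, fun b => ?_⟩
  have h3 := S.isec_shift A.endB b.1 b.2 (MB.isShift_bL b)
  rw [h2] at h3
  have h4 : -(x b : ℂ) = ((-(A.x S b) : ℝ) : ℂ) := h3
  have h5 : ((x b : ℝ) : ℂ) = ((A.x S b : ℝ) : ℂ) := by
    push_cast at h4 ⊢
    exact neg_injective h4
  exact_mod_cast h5.symm

variable {φ : EmbP1 (Cov O.B.hh)} (c : CurveLB O.B.D φ)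

theorem norm_one_end {x : Cov O.B.hh} (hx : c.R ≤ |Cov.f x|) : ‖c.s x‖ ^ 2 = 1 := by
  rw [c.s_end x (by rwa [O.B.f_eq]), norm_eb, one_pow]

theorem eventually_end {x : Cov O.B.hh} (hx : c.R + 1 ≤ |Cov.f x|) :
    ∀ᶠ y in 𝓝 x, c.R < |Cov.f y| :=
  (isOpen_lt continuous_const Cov.continuous_f.abs).mem_nhds (show c.R < |Cov.f x| by linarith)

theorem cs_cF : CS (cF fun x => ‖c.s x‖ ^ 2) := by
  refine ⟨c.R + 1, fun x hx => ⟨rfl, ?_, rfl⟩⟩
  refine H823.PL.curvN_const one_pos (nf_of_dense (dense_of_curve c)).1 ?_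
  filter_upwards [eventually_end c hx] with y hy
  exact norm_one_end c hy.le

theorem supp1_imA : IsCompact (supp1 (H662.imA c.a)) := by
  have hK : IsCompact {z : Cov O.B.hh | -c.R ≤ Cov.f z ∧ Cov.f z ≤ c.R} := Cov.isCompact_slab _ _
  refine hK.of_isClosed_subset isClosed_closure (closure_minimal ?_ hK.isClosed)
  intro x hx
  by_contra hxK
  have h1 : c.R ≤ |Cov.f x| := by
    by_contra h2
    exact hxK (abs_le.1 (not_le.1 h2).le)
  have h2 : c.a x = 0 := c.a_end x (by rwa [O.B.f_eq])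
  rcases hx with h | h
  · apply h
    funext i
    change -conj (c.a x i) = 0
    rw [h2]
    simp
  · exact h h2

/-- the curvature form of the norm function and the curvature of the bundle -/
theorem pair_cF (H : CovFacts O.B.hh) {F : TwoF (Cov O.B.hh)} (hF : F.Smooth) (hF' : F.Closed) :
    pair (cF fun x => ‖c.s x‖ ^ 2) F = pair c.L.curv F := by
  have : SigmaCompactSpace (Cov O.B.hh) := H338.sigmaCompact_cov
  have h0 := (nf_of_dense (dense_of_curve c)).2
  have h1 : (cF fun x => ‖c.s x‖ ^ 2) = c.L.curv + (H662.imA c.a).d := h0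
  have hcs : CS c.L.curv :=
    H.curv_CS (mbc c).L (mbc c).j (mbc c).R (mbc c).endB
  have hsm : (H662.imA c.a).Smooth := H662.imA_smooth c.hol.smooth
  have hd : CS (H662.imA c.a).d := by
    obtain ⟨R, hR⟩ := hcs.smul (-1)
    obtain ⟨R', hR'⟩ := cs_cF c
    refine ⟨max R R', fun x hx => ?_⟩
    obtain ⟨a1, a2, a3⟩ := hR x ((le_max_left _ _).trans hx)
    obtain ⟨b1, b2, b3⟩ := hR' x ((le_max_right _ _).trans hx)
    have h2 : (H662.imA c.a).d = (cF fun x => ‖c.s x‖ ^ 2) + (-1 : ℂ) • c.L.curv := by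
      rw [h1, neg_one_smul]
      abel
    rw [h2]
    refine ⟨?_, ?_, ?_⟩
    · change (cF fun x => ‖c.s x‖ ^ 2).f20 x + ((-1 : ℂ) • c.L.curv).f20 x = 0
      rw [a1, b1, add_zero]
    · change (cF fun x => ‖c.s x‖ ^ 2).f11 x + ((-1 : ℂ) • c.L.curv).f11 x = 0
      rw [a2, b2, add_zero]
    · change (cF fun x => ‖c.s x‖ ^ 2).f02 x + ((-1 : ℂ) • c.L.curv).f02 x = 0
      rw [a3, b3, add_zero]
  have h2 : c.L.curv.Smooth := H.curv_smooth (mbc c).L
  rw [h1, H.pair_add _ _ _ h2 (H.smooth_d _ hsm) hF hcs hd]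
  have h3 : pair (H662.imA c.a).d F = 0 := stokesD _ _ hsm (supp1_imA c) hF hF'
  rw [h3, add_zero]

/-- **Adjunction formula** `K·C + C·C = -2` on the infinite cyclic cover. -/
theorem adj (H : CovFacts O.B.hh) {K : ALB (Cov O.B.hh)} (hK : IsCanon K.L) :
    isec K.L c.L + isec c.L c.L = -2 := by
  have : SigmaCompactSpace (Cov O.B.hh) := H338.sigmaCompact_cov
  have hpi : (Real.pi : ℂ) ≠ 0 := by exact_mod_cast Real.pi_ne_zero
  have hnf := (nf_of_dense (dense_of_curve c)).1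
  have hcv := isNormFn_of_curve φ.isCurve c.norm
  have hslab : IsCompact {z : Cov O.B.hh | -c.R ≤ Cov.f z ∧ Cov.f z ≤ c.R} :=
    Cov.isCompact_slab _ _
  have h1 := H823.PL.adjunction_int φ (N := fun x => ‖c.s x‖ ^ 2) hcv.1 hcv.2 (fun p hp => ?_)
    hslab (fun x hx => ?_) hK
  · have h2 := pair_cF c H (H.curv_smooth K) (H.curv_closed K)
    have h3 := pair_cF c H (cF_smooth hcv.1) (cF_closed hcv.1)
    have h4 := pair_cF c H (H.curv_smooth (mbc c).L) (H.curv_closed (mbc c).L)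
    have h5 : pair c.L.curv (cF fun x => ‖c.s x‖ ^ 2) = pair (cF fun x => ‖c.s x‖ ^ 2) c.L.curv := by
      rw [pair, pair, wedge_comm']
    have h6 : pair (cF fun x => ‖c.s x‖ ^ 2) (cF fun x => ‖c.s x‖ ^ 2) = pair c.L.curv c.L.curv := by
      rw [h3, h5]
      exact h4
    have h7 : pair c.L.curv K.L.curv + pair c.L.curv c.L.curv = 8 * Real.pi ^ 2 := by
      rw [← h2, ← h6]
      exact h1
    have h8 : isec K.L c.L = -(1 / (4 * (Real.pi : ℂ) ^ 2)) * pair c.L.curv K.L.curv := by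
      rw [isec, pair, wedge_comm']
    have h9 : isec c.L c.L = -(1 / (4 * (Real.pi : ℂ) ^ 2)) * pair c.L.curv c.L.curv := rfl
    rw [h8, h9, ← mul_add, h7]
    field_simp
    ring
  · obtain ⟨U, l, hpU, hd⟩ := φ.isCurve.exists_def p ((hcv.2 p).1 hp)
    obtain ⟨ψ, hψ⟩ := c.norm U l hd
    exact ⟨U, l, ψ, hpU, hψ, hd.reg p hpU ((hcv.2 p).1 hp)⟩
  · refine norm_one_end c ?_
    by_contra h2
    exact hx (abs_le.1 (not_le.1 h2).le)

/-- **The class of an embedded projective line.** -/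
theorem cls : ∃ (h : Fin n × ℤ) (I : Finset (Fin n × ℤ)), h ∉ I ∧
    ∀ b, (mbc c).x S b = (if b = h then 1 else 0) - (if b ∈ I then 1 else 0) := by
  classical
  obtain ⟨x, h1, h2, h3⟩ := exists_int S (mbc c)
  have hO : H928.K1.OutData O.B.hh O.E O.i₀ O.R := ⟨O.triv, O.dot, O.can⟩
  obtain ⟨K1, hK1⟩ := (S.form 1).exists_canon
  obtain ⟨K, hK, -⟩ := H.canon_pull 1 K1 hK1
  have e1 := H283.isec_sq H (fun m _ => S.form m) (fun m _ => O.surf m) hO
    (Eb := fun b => O.bL b) (fun b => MB.isShift_bL b) (mbc c).endB h2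
  have e2 := H283.isec_canon_parseval H (fun m _ => S.form m) (fun m _ => O.surf m) hO
    (Eb := fun b => O.bL b) (fun b => MB.isShift_bL b) (mbc c).endB h2 hK
  have e3 := adj c H hK
  have e4 : ∑ᶠ b, x b ^ 2 + ∑ᶠ b, x b = 2 := by
    have e5 : isec K.L (mbc c).L.L + isec (mbc c).L.L (mbc c).L.L = -2 := e3
    rw [e1, e2] at e5
    have e6 : ((∑ᶠ b, x b ^ 2 + ∑ᶠ b, x b : ℤ) : ℂ) = ((2 : ℤ) : ℂ) := by
      push_cast
      push_cast at e5
      linear_combination -e5
    exact_mod_cast e6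
  rcases H283.head_cases h1 e4 with ⟨h, I, hI, hx⟩ | ⟨h, I, hI, hx⟩
  · refine ⟨h, I, hI, fun b => ?_⟩
    rw [h3, hx]
    push_cast
    rfl
  · exfalso
    have : Nonempty (Cov O.B.hh) := ⟨φ.f₀ 0⟩
    have h4 := MB.triv S ((mbc c).mul ((MB.base O h).mul ((MB.base O h).mul (MB.finprod O I))))
      (fun b => by
        rw [MB.x_mul, MB.x_mul, MB.x_mul, MB.x_base, MB.x_finprod, h3, hx]
        by_cases hb : b = h
        · subst hb
          simp [hI]
          norm_num
        · by_cases hbI : b ∈ I <;> simp [hb, hbI]) (φ.f₀ 0)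
    rw [← norm_ne_zero_iff, MB.norm_mul] at h4
    apply h4
    have h5 : c.s (φ.f₀ 0) = 0 := (c.zero _).2 (φ.mem_image_f₀ 0)
    have h6 : ‖(mbc c).α (φ.f₀ 0)‖ = 0 := norm_eq_zero.2 h5
    rw [h6, zero_mul]

end Vale.Agent.P267.H206
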