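import Vale.Agent.P267.H283.Out

/-!
# P267, GX-FACT (helper206), numbers: Parseval on the infinite cyclic cover

`e i`, `i : Fin n`, closed real two-forms with compact support on the infinite cyclic cover, with
`e_i . γ^k e_j = -δ_ij δ_k0`, where `n m = b₂` of the `m`-fold cover for all `m`. A closed real
two-form with compact support which is orthogonal to all `γ^k e_j` becomes exact on all finite
cyclic covers (`wrap_exact`); hence Parseval's formula (`parseval`).
-/

set_option linter.unusedSectionVars false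

open scoped Manifold ContDiff ComplexConjugate
open Set
open Vale.Agent.P267.FL Vale.Agent.P267.H158 Vale.Agent.P267.RR Vale.Agent.P267.H379
open Vale.Agent.P267.BlockC

noncomputable section

namespace Vale.Agent.P267.H206

/-- A closed form which is orthogonal to an orthonormal system of `b₂` elements is exact. -/
theorem exact_of_orth {Y : Type} [TopologicalSpace Y] [ChartedSpace C2 Y] (hF : FormFacts Y)
    {N : ℕ} (hU : Unimod Y N) {β : Type} [Fintype β] [DecidableEq β] (hcard : Fintype.card β = N)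
    (W : β → TwoF Y) (hWs : ∀ b, (W b).Smooth) (hWc : ∀ b, (W b).Closed)
    (hW : ∀ b b', pair (W b) (W b') = if b = b' then -1 else 0) {Φ : TwoF Y} (hs : Φ.Smooth)
    (hc : Φ.Closed) (h0 : ∀ b, pair Φ (W b) = 0) : ExactTwo Φ := by
  classical
  obtain ⟨U, G, -, -, hspan, -, -⟩ := hU
  choose A hA _ using fun b => hspan (W b) (hWs b) (hWc b)
  obtain ⟨t, ht, -⟩ := hspan Φ hs hc
  simp only at hA ht
  set A' : Matrix β (Fin N) ℂ := Matrix.of A with hA'
  set P : Matrix (Fin N) (Fin N) ℂ := Matrix.of fun i j => pair (U i).L.curv (U j).L.curv with hP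
  have hUW : ∀ i b, pair (U i).L.curv (W b) = (A' * P) b i := by
    intro i b
    rw [BlockC.pair_comm, hF.pair_of_exact_sub (A b) (hA b) (hF.curv_smooth (U i))
      (hF.curv_closed (U i)), Matrix.mul_apply]
    rfl
  have h1 : A' * P * (-A'.transpose) = 1 := by
    ext b b'
    have h2 := hW b' b
    rw [hF.pair_of_exact_sub (A b') (hA b') (hWs b) (hWc b)] at h2
    rw [Matrix.mul_neg, Matrix.neg_apply, Matrix.mul_apply, Matrix.one_apply]
    have h3 : ∑ j, (A' * P) b j * A'.transpose j b' = ∑ i, A b' i * pair (U i).L.curv (W b) := by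
      refine Finset.sum_congr rfl fun i _ => ?_
      rw [hUW, Matrix.transpose_apply, mul_comm]
      rfl
    rw [h3, h2]
    simp only [eq_comm (a := b') (b := b)]
    split_ifs <;> simp
  have h2 : (-A'.transpose) * (A' * P) = 1 :=
    (Matrix.mul_eq_one_comm_of_card_eq _ _ _ (by rw [hcard, Fintype.card_fin])).1 h1
  have h3 : (A' * P).mulVec t = 0 := by
    funext b
    have h4 := h0 b
    rw [hF.pair_of_exact_sub t ht (hWs b) (hWc b)] at h4
    rw [Matrix.mulVec, Pi.zero_apply, ← h4]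
    refine Finset.sum_congr rfl fun i _ => ?_
    rw [hUW, mul_comm]
  have h4 : t = 0 := by
    have h5 : (-A'.transpose).mulVec ((A' * P).mulVec t) = t := by
      rw [Matrix.mulVec_mulVec, h2, Matrix.one_mulVec]
    rw [← h5, h3, Matrix.mulVec_zero]
  rw [h4] at ht
  simpa using ht

section cov

variable {X : Type} [TopologicalSpace X] [ChartedSpace C2 X] {h : C(X, UnitAddCircle)}
variable (H : CovFacts h)

/-- what is used about the basis classes -/
structure Orth {n : ℕ} (e : Fin n → H.Vc) : Prop where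
  form : ∀ m : ℕ, ∀ [NeZero m], FormFacts (CovM h m)
  unimod : ∀ m : ℕ, ∀ [NeZero m], Unimod (CovM h m) (m * n)
  dot : ∀ i j (k : ℤ), H.Q (e i) ((H.g ^ k) (e j)) = if i = j ∧ k = 0 then -1 else 0

variable {H} {n : ℕ} {e : Fin n → H.Vc}

/-- values on translates -/
theorem Orth.dot' (O : Orth H e) (i j : Fin n) (k l : ℤ) :
    H.Q ((H.g ^ k) (e i)) ((H.g ^ l) (e j)) = if i = j ∧ k = l then -1 else 0 := by
  rw [iso_shift H.Q_iso, O.dot]
  have : l - k = 0 ↔ k = l := by omega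
  simp only [this]

/-- **A form orthogonal to all `γ^k e_j` becomes exact on every finite cyclic cover.** -/
theorem Orth.wrap_exact (O : Orth H e) (m : ℕ) [NeZero m] {Φ : TwoF (CovM h m)} (hs : Φ.Smooth)
    (hc : Φ.Closed) (F : H.Vc)
    (hΦ : ∀ G : TwoF (Cov h), G.Smooth → CS G →
      pair G (pullM m Φ) = ∑ᶠ k : ℤ, pair G (shF (m * k) F.1))
    (h0 : ∀ i (k : ℤ), H.Q F ((H.g ^ k) (e i)) = 0) : ExactTwo Φ := by
  classical
  have hm : 0 < m := Nat.pos_of_ne_zero (NeZero.ne m)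
  set Fb : Fin n × Fin m → H.Vc := fun b => (H.g ^ (b.2.1 : ℤ)) (e b.1) with hFb
  choose W hWs hWc _ hW4 hW5 using fun b => H.wrap m (Fb b).1 (Fb b).2.1 (Fb b).2.2.1 (Fb b).2.2.2.2
  have hpair : ∀ (b : Fin n × Fin m) (Ψ : TwoF (CovM h m)) (G : H.Vc), Ψ.Smooth →
      (∀ G' : TwoF (Cov h), G'.Smooth → CS G' →
        pair G' (pullM m Ψ) = ∑ᶠ k : ℤ, pair G' (shF (m * k) G.1)) →
      pair (W b) Ψ = (wrapForm H.Q H.g m (Fb b) G : ℂ) := by
    intro b Ψ G hΨ hG
    rw [hW4 b Ψ hΨ, hG _ (Fb b).2.1 (Fb b).2.2.2.2, H.wrapForm_eq]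
  refine exact_of_orth (O.form m) (O.unimod m) (β := Fin n × Fin m) ?_ W hWs hWc ?_ hs hc ?_
  · rw [Fintype.card_prod, Fintype.card_fin, Fintype.card_fin, mul_comm]
  · intro b b'
    rw [hpair b (W b') (Fb b') (hWs b') (hW5 b')]
    have h1 : wrapForm H.Q H.g m (Fb b) (Fb b') = if b = b' then -1 else 0 := by
      rw [wrapForm, finsum_eq_single _ (0 : ℤ)]
      · rw [mul_zero, zpow_zero, LinearEquiv.coe_one, id_eq, hFb]
        simp only
        rw [O.dot']
        have : (b.1 = b'.1 ∧ ((b.2.1 : ℕ) : ℤ) = ((b'.2.1 : ℕ) : ℤ)) ↔ b = b' := by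
          rw [Prod.ext_iff, Fin.ext_iff (a := b.2) (b := b'.2), Int.natCast_inj]
        simp only [this]
      · intro l hl
        rw [hFb]
        simp only
        rw [← LinearEquiv.mul_apply, ← zpow_add, O.dot', if_neg]
        rintro ⟨-, h3⟩
        have h4 := b.2.2
        have h5 := b'.2.2
        have h6 : (m : ℤ) * l = b.2.1 - b'.2.1 := by linarith
        have h7 : |(m : ℤ) * l| < m := by
          rw [h6, abs_lt]
          constructor <;> push_cast <;> omega
        rw [abs_mul, abs_of_nonneg (by positivity : (0 : ℤ) ≤ m)] at h7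
        have h8 : 1 ≤ |l| := Int.one_le_abs hl
        nlinarith
    rw [h1]
    split_ifs <;> simp
  · intro b
    rw [BlockC.pair_comm, hpair b Φ F hs hΦ]
    have h1 : wrapForm H.Q H.g m (Fb b) F = 0 := by
      rw [wrapForm]
      refine finsum_eq_zero_of_forall_eq_zero fun l => ?_
      rw [hFb]
      simp only
      rw [H.Q_symm, iso_shift H.Q_iso]
      exact h0 _ _
    rw [h1, Complex.ofReal_zero]

/-- such a form is in the radical -/
theorem Orth.radical (O : Orth H e) {F : H.Vc} (h0 : ∀ i (k : ℤ), H.Q F ((H.g ^ k) (e i)) = 0)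
    (G : H.Vc) : H.Q F G = 0 := by
  obtain ⟨m, hm⟩ := ((eventually_wrapForm H.local_Q G F).and
    (Filter.eventually_gt_atTop 0)).exists
  have _ : NeZero m := ⟨hm.2.ne'⟩
  obtain ⟨W, hW1, hW2, -, -, hW5⟩ := H.wrap m F.1 F.2.1 F.2.2.1 F.2.2.2.2
  obtain ⟨W', hW1', hW2', -, hW4', -⟩ := H.wrap m G.1 G.2.1 G.2.2.1 G.2.2.2.2
  have hex := O.wrap_exact m hW1 hW2 F hW5 h0
  rw [H.Q_symm, ← hm.1]
  have h1 : (wrapForm H.Q H.g m G F : ℂ) = 0 := by
    rw [H.wrapForm_eq, ← hW5 G.1 G.2.1 G.2.2.2.2, ← hW4' W hW1, BlockC.pair_comm]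
    exact (O.form m).pair_of_exact hex hW1' hW2'
  exact_mod_cast h1

/-- such a form is orthogonal to `K` -/
theorem Orth.canon_zero (O : Orth H e) {F : H.Vc} (h0 : ∀ i (k : ℤ), H.Q F ((H.g ^ k) (e i)) = 0)
    {K : ALB (Cov h)} (hK : IsCanon K.L) : pair F.1 K.L.curv = 0 := by
  obtain ⟨K1, hK1⟩ := (O.form 1).exists_canon
  obtain ⟨K0, hK0, hK0c⟩ := H.canon_pull 1 K1 hK1
  obtain ⟨A, hA, hAd⟩ := H.canon K K0 hK hK0
  have h1 : K.L.curv = K0.L.curv + A.d := by rw [hAd]; abel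
  rw [h1, H.pair_add' _ _ _ F.2.1 (H.curv_smooth K0) (H.smooth_d A hA) F.2.2.2.2,
    H.pair_d A F.1 hA F.2.1 F.2.2.1 F.2.2.2.2, add_zero, hK0c]
  obtain ⟨W, hW1, hW2, -, hW4, hW5⟩ := H.wrap 1 F.1 F.2.1 F.2.2.1 F.2.2.2.2
  have hex := O.wrap_exact 1 hW1 hW2 F hW5 h0
  rw [← hW4 _ ((O.form 1).curv_smooth K1)]
  exact (O.form 1).pair_of_exact hex ((O.form 1).curv_smooth K1) ((O.form 1).curv_closed K1)

/-! ### Parseval -/

/-- the coordinates of `F` -/
def crd (e : Fin n → H.Vc) (F : H.Vc) (b : Fin n × ℤ) : ℝ := -H.Q F ((H.g ^ b.2) (e b.1))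

theorem crd_finite (e : Fin n → H.Vc) (F : H.Vc) : (Function.support (crd e F)).Finite := by
  have h1 : ∀ i : Fin n, {k : ℤ | H.Q F ((H.g ^ k) (e i)) ≠ 0}.Finite := fun i =>
    H.local_Q F (e i)
  refine ((Set.finite_univ (α := Fin n)).biUnion fun i _ =>
    (h1 i).image fun k => ((i, k) : Fin n × ℤ)).subset ?_
  rintro ⟨i, k⟩ hk
  simp only [Set.mem_iUnion]
  refine ⟨i, Set.mem_univ _, k, ?_, rfl⟩
  intro h2
  exact hk (by rw [crd, h2, neg_zero])

/-- the finite set of nonzero coordinates -/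
def sup (e : Fin n → H.Vc) (F : H.Vc) : Finset (Fin n × ℤ) := (crd_finite e F).toFinset

theorem mem_sup {F : H.Vc} {b : Fin n × ℤ} : b ∈ sup e F ↔ crd e F b ≠ 0 := by
  rw [sup, Set.Finite.mem_toFinset, Function.mem_support]

/-- the component orthogonal to all `γ^k e_j` -/
def rest (e : Fin n → H.Vc) (F : H.Vc) : H.Vc :=
  F - ∑ b ∈ sup e F, crd e F b • (H.g ^ b.2) (e b.1)

theorem eq_add_rest (F : H.Vc) :
    F = rest e F + ∑ b ∈ sup e F, crd e F b • (H.g ^ b.2) (e b.1) := by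
  rw [rest]; abel

theorem Orth.sum_dot (O : Orth H e) (x : Fin n × ℤ → ℝ) (S : Finset (Fin n × ℤ))
    (b : Fin n × ℤ) (hb : x b ≠ 0 → b ∈ S) :
    H.Q (∑ c ∈ S, x c • (H.g ^ c.2) (e c.1)) ((H.g ^ b.2) (e b.1)) = -x b := by
  classical
  rw [map_sum, LinearMap.sum_apply]
  have h1 : ∀ c ∈ S, H.Q (x c • (H.g ^ c.2) (e c.1)) ((H.g ^ b.2) (e b.1)) =
      if c = b then -x b else 0 := by
    intro c _
    rw [map_smul, LinearMap.smul_apply, O.dot', smul_eq_mul]
    by_cases hc : c = b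
    · subst hc; simp
    · rw [if_neg, mul_zero, if_neg hc]
      rintro ⟨h2, h3⟩
      exact hc (Prod.ext h2 h3)
  rw [Finset.sum_congr rfl h1, Finset.sum_ite_eq']
  by_cases hbS : b ∈ S
  · rw [if_pos hbS]
  · rw [if_neg hbS]
    have : x b = 0 := by
      by_contra hne
      exact hbS (hb hne)
    rw [this, neg_zero]

theorem Orth.rest_orth (O : Orth H e) (F : H.Vc) (i : Fin n) (k : ℤ) :
    H.Q (rest e F) ((H.g ^ k) (e i)) = 0 := by
  rw [rest, map_sub, LinearMap.sub_apply]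
  have := O.sum_dot (crd e F) (sup e F) (i, k) fun h => mem_sup.2 h
  simp only at this
  rw [this, crd]
  ring

/-- **Parseval** -/
theorem Orth.parseval (O : Orth H e) (F G : H.Vc) :
    H.Q F G = -∑ b ∈ sup e F, crd e F b * crd e G b := by
  conv_lhs => rw [eq_add_rest (e := e) F]
  rw [map_add, LinearMap.add_apply, O.radical (O.rest_orth F), zero_add, map_sum,
    LinearMap.sum_apply, ← Finset.sum_neg_distrib]
  refine Finset.sum_congr rfl fun b _ => ?_
  rw [map_smul, LinearMap.smul_apply, smul_eq_mul, H.Q_symm, crd, crd]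
  ring

/-- pairing with `K`: additivity -/
theorem pair_sum_vc (S : Finset (Fin n × ℤ)) (x : Fin n × ℤ → ℝ) (v : Fin n × ℤ → H.Vc)
    {G : TwoF (Cov h)} (hG : G.Smooth) :
    pair (∑ b ∈ S, x b • v b : H.Vc).1 G = ∑ b ∈ S, (x b : ℂ) * pair (v b).1 G := by
  classical
  induction S using Finset.induction_on with
  | empty =>
    rw [Finset.sum_empty, Finset.sum_empty]
    have h1 := H.pair_smul 0 (0 : TwoF (Cov h)) G H.smooth_zero hG CS.zero
    rw [zero_smul, zero_mul] at h1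
    exact h1
  | insert a S ha ih =>
    rw [Finset.sum_insert ha, Finset.sum_insert ha, ← ih]
    have h1 := H.pair_add (x a • v a : H.Vc).1 (∑ b ∈ S, x b • v b : H.Vc).1 G
      (x a • v a : H.Vc).2.1 (∑ b ∈ S, x b • v b : H.Vc).2.1 hG (x a • v a : H.Vc).2.2.2.2
      (∑ b ∈ S, x b • v b : H.Vc).2.2.2.2
    rw [Submodule.coe_add, h1]
    congr 1
    exact H.pair_smul (x a : ℂ) (v a).1 G (v a).2.1 hG (v a).2.2.2.2

/-- **Parseval for `K`** -/
theorem Orth.canon (O : Orth H e) {K : ALB (Cov h)} (hK : IsCanon K.L) {c : ℂ}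
    (hc : ∀ i (k : ℤ), pair ((H.g ^ k) (e i)).1 K.L.curv = c) (F : H.Vc) :
    pair F.1 K.L.curv = c * (∑ b ∈ sup e F, crd e F b : ℝ) := by
  conv_lhs => rw [eq_add_rest (e := e) F]
  have h1 := H.pair_add (rest e F).1 (∑ b ∈ sup e F, crd e F b • (H.g ^ b.2) (e b.1) : H.Vc).1
    K.L.curv (rest e F).2.1 (∑ b ∈ sup e F, crd e F b • (H.g ^ b.2) (e b.1) : H.Vc).2.1
    (H.curv_smooth K) (rest e F).2.2.2.2
    (∑ b ∈ sup e F, crd e F b • (H.g ^ b.2) (e b.1) : H.Vc).2.2.2.2
  rw [Submodule.coe_add, h1, O.canon_zero (O.rest_orth F) hK, zero_add,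
    pair_sum_vc _ _ _ (H.curv_smooth K)]
  push_cast
  rw [Finset.mul_sum]
  refine Finset.sum_congr rfl fun b _ => ?_
  rw [hc, mul_comm]

end cov

end Vale.Agent.P267.H206
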